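import Vale.Agent.P167.H212.CFlow

/-!
# P167, Stage II (S2), file 2: the argument of the flow at a complex point far from the driver
-/

namespace Vale.Agent.P167.H212

open Set Filter Topology MeasureTheory Vale.Agent.P164 Vale.Agent.P153.BESS Vale.Agent.P167.H411
open Vale.Agent.P167.H947
open Complex (I)

theorem arg_prod {z u : ℂ} {θ : ℝ} (hz : z ≠ 0) (hθ : z.arg = θ) (h0 : 0 < θ) (h1 : θ < Real.pi)
    (hu : 0 < u.re) (him : 0 < (z * u).im) : (z * u).arg = θ + u.arg := by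
  have hu0 : u ≠ 0 := by
    intro h
    rw [h] at hu
    simp at hu
  have h2 : |u.arg| < Real.pi / 2 := Complex.abs_arg_lt_pi_div_two_iff.2 (Or.inl hu)
  obtain ⟨h3, h4⟩ := abs_lt.1 h2
  have e : z * u = ((‖z‖ * ‖u‖ : ℝ) : ℂ) * Complex.exp ((θ + u.arg : ℝ) * I) := by
    conv_lhs => rw [← Complex.norm_mul_exp_arg_mul_I z, ← Complex.norm_mul_exp_arg_mul_I u, hθ]
    push_cast
    rw [add_mul, Complex.exp_add]
    ring
  have h5 : (z * u).im = ‖z‖ * ‖u‖ * Real.sin (θ + u.arg) := by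
    rw [e, Complex.im_ofReal_mul, Complex.exp_ofReal_mul_I_im]
  have h6 : 0 < Real.sin (θ + u.arg) := by
    rw [h5] at him
    have : 0 < ‖z‖ * ‖u‖ := mul_pos (norm_pos_iff.2 hz) (norm_pos_iff.2 hu0)
    exact (pos_iff_pos_of_mul_pos him).1 this
  have h7 : 0 < θ + u.arg := by
    by_contra h
    have := Real.sin_nonpos_of_nonpos_of_neg_pi_le (not_lt.1 h) (by linarith [Real.pi_pos])
    linarith
  have h8 : θ + u.arg ≤ Real.pi := by
    by_contra h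
    have h9 : Real.sin (θ + u.arg - Real.pi) = - Real.sin (θ + u.arg) := Real.sin_sub_pi _
    have h10 := Real.sin_nonneg_of_nonneg_of_le_pi (x := θ + u.arg - Real.pi)
      (by linarith) (by linarith [Real.pi_pos])
    linarith
  rw [Complex.arg_mul hz hu0, hθ]
  rw [hθ]
  exact ⟨by linarith [Real.pi_pos], h8⟩

/-- The complex logarithm of `1 + v`, `v = - w ζ + 2 t ζ² + e ζ`. -/
theorem clog_expand {T R C1 A q w t : ℝ} {e v ζ : ℂ} (hT : 0 ≤ T) (hR : 0 ≤ R) (hq0 : 0 ≤ q)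
    (hq1 : q ≤ 1) (hζ : ‖ζ‖ = q) (hC1 : 0 ≤ C1) (hw : |w| ≤ R) (ht : 0 ≤ t) (htT : t ≤ T)
    (he : ‖e‖ ≤ C1 * q ^ 2) (hv : v = -w * ζ + 2 * t * ζ ^ 2 + e * ζ)
    (hA : A = R + 2 * T + C1) (hAq : A * q ≤ 1 / 2) :
    ‖v‖ ≤ A * q ∧ ‖Complex.log (1 + v) - (-w * ζ + (2 * t - w ^ 2 / 2) * ζ ^ 2)‖ ≤
      (C1 + A * (2 * T + C1) + A ^ 3) * q ^ 3 := by
  have hq21 : q ^ 2 ≤ q := by nlinarith
  have hA0 : 0 ≤ A := by rw [hA]; positivity
  have hwn : ‖(w : ℂ)‖ ≤ R := by rw [Complex.norm_real, Real.norm_eq_abs]; exact hw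
  have h2t : ‖2 * (t : ℂ) * ζ ^ 2‖ ≤ 2 * T * q ^ 2 := by
    rw [norm_mul, norm_mul, norm_pow, hζ, Complex.norm_real, Real.norm_eq_abs, abs_of_nonneg ht]
    have : ‖(2 : ℂ)‖ = 2 := by simp
    rw [this]
    gcongr
  have heq : ‖e * ζ‖ ≤ C1 * q ^ 3 := by
    rw [norm_mul, hζ]
    calc ‖e‖ * q ≤ C1 * q ^ 2 * q := mul_le_mul_of_nonneg_right he hq0
      _ = C1 * q ^ 3 := by ring
  have heq2 : ‖e * ζ‖ ≤ C1 * q ^ 2 := by
    refine heq.trans ?_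
    have : q ^ 3 ≤ q ^ 2 := pow_le_pow_of_le_one hq0 hq1 (by norm_num)
    exact mul_le_mul_of_nonneg_left this hC1
  have hsum : ‖v - -(w * ζ)‖ ≤ (2 * T + C1) * q ^ 2 := by
    have e' : v - -(w * ζ) = 2 * t * ζ ^ 2 + e * ζ := by rw [hv]; ring
    rw [e', add_mul]
    exact (norm_add_le _ _).trans (add_le_add h2t heq2)
  have hwq : ‖(w : ℂ) * ζ‖ ≤ R * q := by
    rw [norm_mul, hζ]
    exact mul_le_mul_of_nonneg_right hwn hq0
  have hvA : ‖v‖ ≤ A * q := by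
    have e : v = (v - -(w * ζ)) + -(w * ζ) := by ring
    rw [e]
    refine (norm_add_le _ _).trans ?_
    rw [norm_neg]
    have : (2 * T + C1) * q ^ 2 ≤ (2 * T + C1) * q :=
      mul_le_mul_of_nonneg_left hq21 (by positivity)
    rw [hA]
    linarith
  refine ⟨hvA, ?_⟩
  have h3 := clog_aux hvA hAq
  have hwA : ‖(w : ℂ) * ζ‖ ≤ A * q :=
    hwq.trans (mul_le_mul_of_nonneg_right (by rw [hA]; linarith) hq0)
  have h4 : ‖v ^ 2 - (w * ζ) ^ 2‖ ≤ (2 * T + C1) * q ^ 2 * (2 * (A * q)) := by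
    have e : v ^ 2 - (w * ζ) ^ 2 = (v - -(w * ζ)) * (v + -(w * ζ)) := by ring
    rw [e, norm_mul]
    have h5 : ‖v + -(w * ζ)‖ ≤ 2 * (A * q) := by
      refine (norm_add_le _ _).trans ?_
      rw [norm_neg]
      linarith
    exact mul_le_mul hsum h5 (norm_nonneg _) (by positivity)
  have e2 : Complex.log (1 + v) - (-w * ζ + (2 * t - w ^ 2 / 2) * ζ ^ 2) =
      e * ζ - (v ^ 2 - (w * ζ) ^ 2) / 2 + (Complex.log (1 + v) - (v - v ^ 2 / 2)) := by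
    rw [hv]; ring
  rw [e2]
  have b1 := norm_add_le (e * ζ - (v ^ 2 - (w * ζ) ^ 2) / 2)
    (Complex.log (1 + v) - (v - v ^ 2 / 2))
  have b2 := norm_sub_le (e * ζ) ((v ^ 2 - (w * ζ) ^ 2) / 2)
  have b4 : ‖(v ^ 2 - (w * ζ) ^ 2) / 2‖ ≤ A * (2 * T + C1) * q ^ 3 := by
    have h20 : ‖(2 : ℂ)‖ = 2 := by simp
    rw [norm_div, h20]
    calc ‖v ^ 2 - (w * ζ) ^ 2‖ / 2 ≤ ((2 * T + C1) * q ^ 2 * (2 * (A * q))) / 2 := by gcongr
      _ = A * (2 * T + C1) * q ^ 3 := by ring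
  have e3' : (A * q) ^ 3 = A ^ 3 * q ^ 3 := by ring
  rw [e3'] at h3
  calc _ ≤ C1 * q ^ 3 + A * (2 * T + C1) * q ^ 3 + A ^ 3 * q ^ 3 := by linarith
    _ = _ := by ring

/-- The main terms of the argument of `g_t(b e^{i θ}) - W_t`. -/
noncomputable def mainU (w t b θ : ℝ) : ℝ :=
  θ + w / b * Real.sin θ + (w ^ 2 / 2 - 2 * t) / b ^ 2 * Real.sin (2 * θ)

/-- The point `b e^{i θ}`. -/
noncomputable def pz (b θ : ℝ) : ℂ := b * Complex.exp (θ * I)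

theorem norm_pz {b : ℝ} (hb : 0 ≤ b) (θ : ℝ) : ‖pz b θ‖ = b := by
  rw [pz, norm_mul, Complex.norm_exp_ofReal_mul_I, mul_one, Complex.norm_real, Real.norm_eq_abs,
    abs_of_nonneg hb]

theorem im_pz (b θ : ℝ) : (pz b θ).im = b * Real.sin θ := by
  rw [pz, Complex.im_ofReal_mul, Complex.exp_ofReal_mul_I_im]

theorem arg_pz {b θ : ℝ} (hb : 0 < b) (h0 : 0 < θ) (h1 : θ < Real.pi) : (pz b θ).arg = θ := by
  rw [pz, Complex.arg_real_mul _ hb, Complex.arg_exp_mul_I, toIocMod_eq_self]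
  exact ⟨by linarith [Real.pi_pos], by linarith⟩

theorem continuous_pz (b : ℝ) : Continuous (pz b) := by
  unfold pz
  fun_prop

/-- **The argument of the flow far from the driver.** -/
theorem arg_flow {T R : ℝ} (hT : 0 ≤ T) (hR : 0 ≤ R) : ∃ C b₀ : ℝ, 0 ≤ C ∧ 0 < b₀ ∧
    ∀ (W : ℝ → ℝ) (b t : ℝ), 0 ≤ t → t ≤ T → ContinuousOn W (Icc 0 t) →
      (∀ s ∈ Icc 0 t, |W s| ≤ R) → b₀ ≤ b → ∀ θ : ℝ, 0 < θ → θ < Real.pi →
      pz b θ ∈ surv W t ∧ 0 < (flow W t (pz b θ) - W t).im ∧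
      |(flow W t (pz b θ) - W t).arg - mainU (W t) t b θ| ≤ C / b ^ 3 := by
  obtain ⟨C1, hC1⟩ : ∃ C1, C1 = 4 * T * (4 * T + R) := ⟨_, rfl⟩
  obtain ⟨A, hA⟩ : ∃ A, A = R + 2 * T + C1 := ⟨_, rfl⟩
  have hC10 : 0 ≤ C1 := by rw [hC1]; positivity
  have hA0 : 0 ≤ A := by rw [hA]; positivity
  refine ⟨C1 + A * (2 * T + C1) + A ^ 3, 1 + 4 * R + 16 * T + 2 * A, by positivity, by positivity,
    ?_⟩
  intro W b t ht htT hW hWR hb θ hθ0 hθ1
  have hb1 : 1 ≤ b := by linarith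
  have hb0 : 0 < b := by linarith
  set z := pz b θ with hzdef
  have hzn : ‖z‖ = b := norm_pz hb0.le θ
  have hz0 : 0 < ‖z‖ := by rw [hzn]; exact hb0
  have hzne : z ≠ 0 := norm_pos_iff.1 hz0
  have h1 : 4 * R ≤ ‖z‖ := by rw [hzn]; linarith
  have h2 : 16 * t ≤ ‖z‖ ^ 2 := by
    rw [hzn]
    nlinarith
  obtain ⟨g, hg⟩ := exists_csol ht hW hWR hz0 h1 h2
  have hsin : 0 < Real.sin θ := Real.sin_pos_of_pos_of_lt_pi hθ0 hθ1
  have hzim : 0 < z.im := by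
    rw [hzdef, im_pz]
    positivity
  rw [flow_eq ht hW hg]
  have hgim : 0 < (g t - W t).im := by
    rw [Complex.sub_im, Complex.ofReal_im, sub_zero]
    exact ((hg.loewner hW hzim).2 t ⟨ht, le_rfl⟩).1
  refine ⟨⟨g, hg⟩, hgim, ?_⟩
  have hsec := cs_second ht hR hW hWR hz0 h1 h2 hg
  rw [hzn] at hsec
  obtain ⟨q, hq⟩ : ∃ q, q = b⁻¹ := ⟨_, rfl⟩
  have hq0 : 0 ≤ q := by rw [hq]; positivity
  have hq1 : q ≤ 1 := by rw [hq]; exact inv_le_one_of_one_le₀ hb1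
  have hζn : ‖z⁻¹‖ = q := by rw [norm_inv, hzn, hq]
  have he : ‖g t - z - 2 * t / z‖ ≤ C1 * q ^ 2 := by
    refine hsec.trans ?_
    rw [hq, inv_pow, div_eq_mul_inv]
    apply mul_le_mul_of_nonneg_right _ (by positivity)
    have hfr : 4 * t / b ≤ 4 * T := by
      rw [div_le_iff₀ hb0]
      nlinarith
    have hfr0 : 0 ≤ 4 * t / b := by positivity
    rw [hC1]
    exact mul_le_mul (by linarith) (by linarith) (by positivity) (by positivity)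
  obtain ⟨v, hv⟩ : ∃ v, v = (g t - W t) / z - 1 := ⟨_, rfl⟩
  have hv' : v = -(W t) * z⁻¹ + 2 * t * z⁻¹ ^ 2 + (g t - z - 2 * t / z) * z⁻¹ := by
    rw [hv]
    field_simp
    ring
  have hAq : A * q ≤ 1 / 2 := by
    rw [hq, ← div_eq_mul_inv, div_le_iff₀ hb0]
    linarith
  obtain ⟨hvA, key⟩ := clog_expand hT hR hq0 hq1 hζn hC10 (hWR t ⟨ht, le_rfl⟩) ht htT he hv' hA hAq
  have hre : 0 < (1 + v).re := by
    have h3 : |v.re| ≤ 1 / 2 := (Complex.abs_re_le_norm v).trans (hvA.trans hAq)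
    have := (abs_le.1 h3).1
    rw [Complex.add_re, Complex.one_re]
    linarith
  have hprod : z * (1 + v) = g t - W t := by
    rw [hv]
    field_simp
    ring
  have harg := arg_prod hzne (arg_pz hb0 hθ0 hθ1) hθ0 hθ1 hre (by rw [hprod]; exact hgim)
  rw [hprod] at harg
  rw [harg, ← Complex.log_im]
  have him : (-(W t : ℂ) * z⁻¹ + (2 * t - (W t : ℂ) ^ 2 / 2) * z⁻¹ ^ 2).im =
      W t / b * Real.sin θ + ((W t) ^ 2 / 2 - 2 * t) / b ^ 2 * Real.sin (2 * θ) := by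
    have e1 : z⁻¹ = ((b⁻¹ : ℝ) : ℂ) * Complex.exp (((-θ : ℝ) : ℂ) * I) := by
      rw [hzdef, pz, mul_inv, ← Complex.exp_neg]
      push_cast
      congr 2
      ring
    have e2 : z⁻¹ ^ 2 = ((b⁻¹ ^ 2 : ℝ) : ℂ) * Complex.exp (((-(2 * θ) : ℝ) : ℂ) * I) := by
      rw [e1, mul_pow, ← Complex.exp_nat_mul]
      push_cast
      congr 2
      ring
    have e3 : (-(W t : ℂ) * z⁻¹ + (2 * t - (W t : ℂ) ^ 2 / 2) * z⁻¹ ^ 2) =
        ((-(W t) * b⁻¹ : ℝ) : ℂ) * Complex.exp (((-θ : ℝ) : ℂ) * I) +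
        (((2 * t - (W t) ^ 2 / 2) * b⁻¹ ^ 2 : ℝ) : ℂ) *
          Complex.exp (((-(2 * θ) : ℝ) : ℂ) * I) := by
      rw [e2, e1]
      push_cast
      ring
    rw [e3, Complex.add_im, Complex.im_ofReal_mul, Complex.im_ofReal_mul,
      Complex.exp_ofReal_mul_I_im, Complex.exp_ofReal_mul_I_im, Real.sin_neg, Real.sin_neg]
    field_simp
    ring
  have h3 := Complex.abs_im_le_norm (Complex.log (1 + v) -
    (-(W t : ℂ) * z⁻¹ + (2 * t - (W t : ℂ) ^ 2 / 2) * z⁻¹ ^ 2))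
  rw [Complex.sub_im, him] at h3
  have e : θ + (Complex.log (1 + v)).im - mainU (W t) t b θ = (Complex.log (1 + v)).im -
      (W t / b * Real.sin θ + ((W t) ^ 2 / 2 - 2 * t) / b ^ 2 * Real.sin (2 * θ)) := by
    unfold mainU
    ring
  rw [e]
  refine (h3.trans key).trans (le_of_eq ?_)
  rw [hq, inv_pow, div_eq_mul_inv]

end Vale.Agent.P167.H212
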