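import Vale.Agent.P167.H947.Flow
import Mathlib.Analysis.SpecialFunctions.Complex.LogBounds

/-!
# P167, Stage II (S2), file 1: the Loewner flow at a complex point far from the driver

`arg_flow`: the argument of `g_t(z) - W_t` at `z = b e^{i θ}`, `0 < θ < π`, is
`θ + (W_t / b) sin θ + ((W_t² / 2 - 2 t) / b²) sin 2θ + O(b⁻³)`, uniformly in `θ`.
-/

namespace Vale.Agent.P167.H212

open Set Filter Topology MeasureTheory Vale.Agent.P164 Vale.Agent.P153.BESS Vale.Agent.P167.H411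
open Vale.Agent.P167.H947

/-- Bounds for a solution started at `z`, `|z|` large. -/
theorem cs_bounds {W : ℝ → ℝ} {t R : ℝ} {z : ℂ} {g : ℝ → ℂ} (ht : 0 ≤ t)
    (hW : ContinuousOn W (Icc 0 t)) (hR : ∀ s ∈ Icc 0 t, |W s| ≤ R) (hz : 0 < ‖z‖)
    (h1 : 4 * R ≤ ‖z‖) (h2 : 16 * t ≤ ‖z‖ ^ 2) (hg : CSol W z t g) :
    ∀ s ∈ Icc 0 t, ‖g s - z‖ ≤ 4 / ‖z‖ * s ∧ ‖g s - z‖ ≤ ‖z‖ / 4 ∧ ‖z‖ / 2 ≤ ‖g s - W s‖ := by
  have hc : 0 < ‖z‖ / 2 := by positivity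
  obtain ⟨α, h0, hα⟩ := exists_reg ht hc hW z
  have h3 : ∀ s ∈ Icc 0 t, ‖α s - z‖ ≤ 4 / ‖z‖ * s := by
    intro s hs
    have h4 := norm_image_sub_le_of_norm_deriv_le_segment' (C := 4 / ‖z‖) hα
      (fun u _ => by
        refine (fld_norm_le hc _).trans (le_of_eq ?_)
        field_simp
        norm_num) s hs
    rwa [h0, sub_zero] at h4
  have h4 : ∀ s ∈ Icc 0 t, 4 / ‖z‖ * s ≤ ‖z‖ / 4 := by
    intro s hs
    rw [div_mul_eq_mul_div, div_le_div_iff₀ hz (by norm_num)]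
    nlinarith [hs.2]
  have h5 : ∀ s ∈ Icc 0 t, ‖z‖ / 2 ≤ ‖α s - (W s : ℂ)‖ := by
    intro s hs
    have h6 : ‖z‖ ≤ ‖α s - (W s : ℂ)‖ + ‖(W s : ℂ)‖ + ‖α s - z‖ := by
      have e : z = (α s - (W s : ℂ)) + (W s : ℂ) - (α s - z) := by ring
      calc ‖z‖ = ‖(α s - (W s : ℂ)) + (W s : ℂ) - (α s - z)‖ := by rw [← e]
        _ ≤ _ := (norm_sub_le _ _).trans (by gcongr; exact norm_add_le _ _)
    rw [Complex.norm_real, Real.norm_eq_abs] at h6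
    have := hR s hs
    have := h3 s hs
    have := h4 s hs
    linarith
  have hcs : CSol W z t α := CSol_of_reg hc h0 hα h5
  have he := csol_unique ht hW hcs hg
  intro s hs
  have e1 : α s = g s := he hs
  rw [← e1]
  exact ⟨h3 s hs, (h3 s hs).trans (h4 s hs), h5 s hs⟩

/-- `z + 2 t / z` is the flow up to second order. -/
theorem cs_second {W : ℝ → ℝ} {t R : ℝ} {z : ℂ} {g : ℝ → ℂ} (ht : 0 ≤ t) (hR0 : 0 ≤ R)
    (hW : ContinuousOn W (Icc 0 t)) (hR : ∀ s ∈ Icc 0 t, |W s| ≤ R) (hz : 0 < ‖z‖)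
    (h1 : 4 * R ≤ ‖z‖) (h2 : 16 * t ≤ ‖z‖ ^ 2) (hg : CSol W z t g) :
    ‖g t - z - 2 * t / z‖ ≤ 4 * t * (4 * t / ‖z‖ + R) / ‖z‖ ^ 2 := by
  have hbd := cs_bounds ht hW hR hz h1 h2 hg
  have hz0 : z ≠ 0 := norm_pos_iff.1 hz
  have hf : ∀ s ∈ Icc 0 t, HasDerivWithinAt (fun s : ℝ => g s - 2 * s / z)
      (2 / (g s - W s) - 2 / z) (Icc 0 t) s := by
    intro s hs
    have h3 : HasDerivAt (fun s : ℝ => 2 * (s : ℂ) / z) (2 * 1 / z) s :=
      (((hasDerivAt_id s).ofReal_comp).const_mul 2).div_const z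
    rw [mul_one] at h3
    exact (hg.2 s hs).2.sub h3.hasDerivWithinAt
  have hbd2 : ∀ s ∈ Ico 0 t, ‖2 / (g s - W s) - 2 / z‖ ≤ 4 * (4 * t / ‖z‖ + R) / ‖z‖ ^ 2 := by
    intro s hs
    have hs' : s ∈ Icc 0 t := ⟨hs.1, hs.2.le⟩
    obtain ⟨h3, -, h4⟩ := hbd s hs'
    have h5 : g s - W s ≠ 0 := by
      intro h
      rw [h, norm_zero] at h4
      linarith
    have e1 : (2 : ℂ) / (g s - W s) - 2 / z = 2 * (W s - (g s - z)) / ((g s - W s) * z) := by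
      field_simp
      ring
    rw [e1, norm_div, norm_mul, norm_mul]
    have h20 : ‖(2 : ℂ)‖ = 2 := by simp
    rw [h20]
    have h6 : ‖(W s : ℂ) - (g s - z)‖ ≤ 4 * t / ‖z‖ + R := by
      refine (norm_sub_le _ _).trans ?_
      rw [Complex.norm_real, Real.norm_eq_abs]
      have h7 := hR s hs'
      have h8 : 4 / ‖z‖ * s ≤ 4 * t / ‖z‖ := by
        rw [div_mul_eq_mul_div]
        apply div_le_div_of_nonneg_right _ hz.le
        linarith [hs.2]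
      linarith
    have h7 : ‖z‖ ^ 2 / 2 ≤ ‖g s - W s‖ * ‖z‖ := by nlinarith
    have h8 : 0 ≤ 4 * t / ‖z‖ + R := by positivity
    calc 2 * ‖(W s : ℂ) - (g s - z)‖ / (‖g s - W s‖ * ‖z‖)
        ≤ 2 * (4 * t / ‖z‖ + R) / (‖z‖ ^ 2 / 2) :=
          div_le_div₀ (by positivity) (by linarith) (by positivity) h7
      _ = 4 * (4 * t / ‖z‖ + R) / ‖z‖ ^ 2 := by field_simp; ring
  have key := norm_image_sub_le_of_norm_deriv_le_segment' hf hbd2 t ⟨ht, le_rfl⟩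
  simp only [Complex.ofReal_zero, sub_zero, mul_zero, zero_div] at key
  rw [hg.1] at key
  have e2 : g t - z - 2 * t / z = g t - 2 * t / z - z := by ring
  rw [e2]
  refine key.trans (le_of_eq ?_)
  ring

/-- The complex logarithm up to second order. -/
theorem clog_aux {v : ℂ} {A : ℝ} (hv : ‖v‖ ≤ A) (hA : A ≤ 1 / 2) :
    ‖Complex.log (1 + v) - (v - v ^ 2 / 2)‖ ≤ A ^ 3 := by
  have h1 := Complex.norm_log_sub_logTaylor_le 2 (z := v) (by linarith)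
  have e : Complex.logTaylor (2 + 1) v = v - v ^ 2 / 2 := by
    simp only [Complex.logTaylor_succ, Complex.logTaylor_zero, Pi.add_apply]
    norm_num
    ring
  rw [e] at h1
  refine h1.trans ?_
  have h0 : 0 ≤ ‖v‖ := norm_nonneg v
  have h4 : ‖v‖ ^ (2 + 1) ≤ A ^ 3 := pow_le_pow_left₀ h0 hv 3
  have h5 : (1 - ‖v‖)⁻¹ ≤ 2 := by
    rw [inv_le_comm₀ (by linarith) (by norm_num)]
    linarith
  have h6 : 0 ≤ (1 - ‖v‖)⁻¹ := by
    apply inv_nonneg.2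
    linarith
  have hA0 : 0 ≤ A ^ 3 := pow_nonneg (h0.trans hv) 3
  calc ‖v‖ ^ (2 + 1) * (1 - ‖v‖)⁻¹ / ((2 : ℕ) + 1) ≤ A ^ 3 * 2 / 3 := by
        push_cast
        have := mul_le_mul h4 h5 h6 hA0
        have e3 : (2 : ℝ) + 1 = 3 := by norm_num
        rw [e3]
        linarith
    _ ≤ A ^ 3 := by linarith

end Vale.Agent.P167.H212
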