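import Mathlib.MeasureTheory.Function.Jacobian
import Mathlib.MeasureTheory.Integral.IntervalIntegral.FundThmCalculus
import Mathlib.MeasureTheory.Integral.IntervalIntegral.Basic
import Mathlib.Analysis.SpecialFunctions.Integrals.Basic

/-!
# P167, Stage II (S2), file 3: monotone functions of an angle
-/

namespace Vale.Agent.P167.H212

open Set Filter Topology MeasureTheory Real

/-! ### The change of variables -/

/-- The approximate inverse of the angle. -/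
noncomputable def vv (α γ s : ℝ) : ℝ := s - α * sin s + γ * sin (2 * s)

/-- The derivative of `vv`. -/
noncomputable def dv (α γ s : ℝ) : ℝ := 1 - α * cos s + 2 * γ * cos (2 * s)

theorem hasDerivAt_vv (α γ s : ℝ) : HasDerivAt (vv α γ) (dv α γ s) s := by
  have h1 : HasDerivAt (fun s : ℝ => sin (2 * s)) (cos (2 * s) * 2) s := by
    have := (hasDerivAt_sin (2 * s)).comp s ((hasDerivAt_id s).const_mul 2)
    rw [mul_one] at this
    exact this
  have h := ((hasDerivAt_id s).sub ((hasDerivAt_sin s).const_mul α)).add (h1.const_mul γ)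
  refine h.congr_deriv ?_
  unfold dv
  ring

theorem continuous_dv (α γ : ℝ) : Continuous (dv α γ) := by
  unfold dv
  fun_prop

theorem continuous_vv (α γ : ℝ) : Continuous (vv α γ) := by
  unfold vv
  fun_prop

theorem dv_pos {α γ : ℝ} (h : |α| + 2 * |γ| < 1) (s : ℝ) : 0 < dv α γ s := by
  have h1 : |α * cos s| ≤ |α| := by
    rw [abs_mul]
    exact mul_le_of_le_one_right (abs_nonneg _) (abs_cos_le_one _)
  have h2 : |γ * cos (2 * s)| ≤ |γ| := by
    rw [abs_mul]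
    exact mul_le_of_le_one_right (abs_nonneg _) (abs_cos_le_one _)
  have := (abs_le.1 h1).2
  have := (abs_le.1 h2).1
  unfold dv
  linarith

theorem dv_le {α γ : ℝ} (h : |α| + 2 * |γ| < 1) (s : ℝ) : dv α γ s ≤ 2 := by
  have h1 : |α * cos s| ≤ |α| := by
    rw [abs_mul]
    exact mul_le_of_le_one_right (abs_nonneg _) (abs_cos_le_one _)
  have h2 : |γ * cos (2 * s)| ≤ |γ| := by
    rw [abs_mul]
    exact mul_le_of_le_one_right (abs_nonneg _) (abs_cos_le_one _)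
  have := (abs_le.1 h1).1
  have := (abs_le.1 h2).2
  unfold dv
  linarith

theorem strictMono_vv {α γ : ℝ} (h : |α| + 2 * |γ| < 1) : StrictMono (vv α γ) :=
  strictMono_of_deriv_pos fun s => by
    rw [(hasDerivAt_vv α γ s).deriv]
    exact dv_pos h s

theorem vv_zero (α γ : ℝ) : vv α γ 0 = 0 := by simp [vv]

theorem vv_pi (α γ : ℝ) : vv α γ π = π := by simp [vv]

theorem vv_mem {α γ : ℝ} (h : |α| + 2 * |γ| < 1) {s : ℝ} (hs : s ∈ Ioo 0 π) :
    vv α γ s ∈ Ioo 0 π := by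
  have h1 := strictMono_vv h hs.1
  have h2 := strictMono_vv h hs.2
  rw [vv_zero] at h1
  rw [vv_pi] at h2
  exact ⟨h1, h2⟩

theorem image_vv {α γ : ℝ} (h : |α| + 2 * |γ| < 1) : vv α γ '' Ioo 0 π = Ioo 0 π := by
  apply Subset.antisymm
  · rintro _ ⟨s, hs, rfl⟩
    exact vv_mem h hs
  · have := intermediate_value_Ioo (f := vv α γ) pi_pos.le (continuous_vv α γ).continuousOn
    rwa [vv_zero, vv_pi] at this

theorem integral_vv {α γ : ℝ} (h : |α| + 2 * |γ| < 1) (F : ℝ → ℝ) :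
    ∫ θ in Ioo 0 π, F θ = ∫ s in Ioo 0 π, F (vv α γ s) * dv α γ s := by
  have h1 := integral_image_eq_integral_abs_deriv_smul (f := vv α γ) (f' := dv α γ)
    (measurableSet_Ioo (a := (0 : ℝ)) (b := π))
    (fun s _ => (hasDerivAt_vv α γ s).hasDerivWithinAt) (strictMono_vv h).injective.injOn F
  rw [image_vv h] at h1
  rw [h1]
  refine integral_congr_ae (Eventually.of_forall fun s => ?_)
  simp only [smul_eq_mul]
  rw [abs_of_pos (dv_pos h s), mul_comm]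

/-! ### Algebra of the expansion -/

theorem abs_sin_add_sub {s δ : ℝ} (hδ : |δ| ≤ 1) : |sin (s + δ) - sin s - δ * cos s| ≤ δ ^ 2 := by
  rw [sin_add]
  have h1 : |cos δ - 1| ≤ δ ^ 2 / 2 := by
    rw [abs_sub_comm, abs_of_nonneg (by linarith [cos_le_one δ])]
    linarith [one_sub_sq_div_two_le_cos (x := δ)]
  have h2 : |sin δ - δ| ≤ δ ^ 2 / 2 := by
    have h3 := sin_bound hδ
    have h4 : |δ ^ 3 / 6| ≤ δ ^ 2 / 6 := by
      rw [abs_div, abs_of_pos (show (0 : ℝ) < 6 by norm_num), abs_pow]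
      have : |δ| ^ 3 ≤ |δ| ^ 2 := pow_le_pow_of_le_one (abs_nonneg _) hδ (by norm_num)
      rw [sq_abs] at this
      linarith
    have h5 : |δ| ^ 5 / 100 ≤ δ ^ 2 / 6 := by
      have : |δ| ^ 5 ≤ |δ| ^ 2 := pow_le_pow_of_le_one (abs_nonneg _) hδ (by norm_num)
      rw [sq_abs] at this
      nlinarith [sq_nonneg δ]
    have e : sin δ - δ = (sin δ - (δ - δ ^ 3 / 6)) - δ ^ 3 / 6 := by ring
    rw [e]
    refine (abs_sub _ _).trans ?_
    have := sq_nonneg δ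
    linarith
  have e : sin s * cos δ + cos s * sin δ - sin s - δ * cos s =
      sin s * (cos δ - 1) + cos s * (sin δ - δ) := by ring
  rw [e]
  refine (abs_add_le _ _).trans ?_
  rw [abs_mul, abs_mul]
  have h3 := mul_le_mul (abs_sin_le_one s) h1 (abs_nonneg _) zero_le_one
  have h4 := mul_le_mul (abs_cos_le_one s) h2 (abs_nonneg _) zero_le_one
  linarith

theorem abs_sin_sub_le (x y : ℝ) : |sin x - sin y| ≤ |x - y| := by
  have := lipschitzWith_sin.dist_le_mul x y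
  rw [dist_eq_norm, dist_eq_norm, norm_eq_abs, norm_eq_abs] at this
  simpa using this

/-- The angle at the approximate inverse. -/
theorem abs_ang_vv {α γ A q : ℝ} (hq0 : 0 ≤ q) (hq1 : q ≤ 1) (hA : 0 ≤ A) (hα : |α| ≤ A * q)
    (hγ : |γ| ≤ A * q ^ 2) (hAq : 2 * A * q ≤ 1) (s : ℝ) :
    |vv α γ s + α * sin (vv α γ s) + (α ^ 2 / 2 - γ) * sin (2 * vv α γ s) - s| ≤
      (8 * A ^ 3 + 5 * A ^ 2) * q ^ 3 := by
  obtain ⟨δ, hδ⟩ : ∃ δ, δ = -α * sin s + γ * sin (2 * s) := ⟨_, rfl⟩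
  have hv : vv α γ s = s + δ := by
    rw [hδ]
    unfold vv
    ring
  have hq21 : q ^ 2 ≤ q := by nlinarith
  have hδ1 : |δ| ≤ 2 * A * q := by
    rw [hδ]
    refine (abs_add_le _ _).trans ?_
    rw [abs_mul, abs_mul, abs_neg]
    have h1 : |α| * |sin s| ≤ |α| := mul_le_of_le_one_right (abs_nonneg _) (abs_sin_le_one _)
    have h2 : |γ| * |sin (2 * s)| ≤ |γ| :=
      mul_le_of_le_one_right (abs_nonneg _) (abs_sin_le_one _)
    have h3 : A * q ^ 2 ≤ A * q := mul_le_mul_of_nonneg_left hq21 hA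
    linarith
  have hδ2 : |δ| ≤ 1 := hδ1.trans hAq
  obtain ⟨E1, hE1⟩ : ∃ E1, E1 = sin (s + δ) - sin s - δ * cos s := ⟨_, rfl⟩
  obtain ⟨E2, hE2⟩ : ∃ E2, E2 = sin (2 * (s + δ)) - sin (2 * s) := ⟨_, rfl⟩
  have hE1' : |E1| ≤ (2 * A * q) ^ 2 := by
    rw [hE1]
    refine (abs_sin_add_sub hδ2).trans ?_
    rw [← sq_abs]
    exact pow_le_pow_left₀ (abs_nonneg _) hδ1 2
  have hE2' : |E2| ≤ 2 * (2 * A * q) := by
    rw [hE2]
    refine (abs_sin_sub_le _ _).trans ?_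
    have e : 2 * (s + δ) - 2 * s = 2 * δ := by ring
    rw [e, abs_mul, abs_two]
    linarith
  have hβ : |α ^ 2 / 2 - γ| ≤ (A ^ 2 + A) * q ^ 2 := by
    refine (abs_sub _ _).trans ?_
    rw [abs_div, abs_pow, abs_two]
    have h1 : |α| ^ 2 ≤ (A * q) ^ 2 := pow_le_pow_left₀ (abs_nonneg _) hα 2
    have h2 : 0 ≤ (A * q) ^ 2 := sq_nonneg _
    nlinarith
  have e : s + δ + α * sin (s + δ) + (α ^ 2 / 2 - γ) * sin (2 * (s + δ)) - s =
      α * γ * (sin (2 * s) * cos s) + α * E1 + (α ^ 2 / 2 - γ) * E2 := by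
    rw [hE1, hE2, sin_two_mul s] 
    have h1 : δ = -α * sin s + γ * (2 * sin s * cos s) := by rw [hδ, sin_two_mul]
    linear_combination (1 + α * cos s) * h1
  rw [hv, e]
  have b1 : |α * γ * (sin (2 * s) * cos s)| ≤ A ^ 2 * q ^ 3 := by
    have h1 : |sin (2 * s) * cos s| ≤ 1 := by
      rw [abs_mul]
      exact mul_le_one₀ (abs_sin_le_one _) (abs_nonneg _) (abs_cos_le_one _)
    rw [abs_mul, abs_mul]
    calc |α| * |γ| * |sin (2 * s) * cos s| ≤ (A * q) * (A * q ^ 2) * 1 := by gcongr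
      _ = A ^ 2 * q ^ 3 := by ring
  have b2 : |α * E1| ≤ 4 * A ^ 3 * q ^ 3 := by
    rw [abs_mul]
    calc |α| * |E1| ≤ (A * q) * (2 * A * q) ^ 2 := by gcongr
      _ = _ := by ring
  have b3 : |(α ^ 2 / 2 - γ) * E2| ≤ (4 * A ^ 3 + 4 * A ^ 2) * q ^ 3 := by
    rw [abs_mul]
    calc |α ^ 2 / 2 - γ| * |E2| ≤ ((A ^ 2 + A) * q ^ 2) * (2 * (2 * A * q)) := by gcongr
      _ = _ := by ring
  have b4 := abs_add_three (α * γ * (sin (2 * s) * cos s)) (α * E1) ((α ^ 2 / 2 - γ) * E2)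
  calc _ ≤ A ^ 2 * q ^ 3 + 4 * A ^ 3 * q ^ 3 + (4 * A ^ 3 + 4 * A ^ 2) * q ^ 3 := by linarith
    _ = _ := by ring

/-- The weights of the expansion. -/
noncomputable def w1 (K s : ℝ) : ℝ := (K + s) * cos s + sin s
noncomputable def w2 (K s : ℝ) : ℝ := 2 * (K + s) * cos (2 * s) + sin (2 * s)
noncomputable def w3 (s : ℝ) : ℝ := sin s * cos s

theorem abs_wt_vv {α γ A q : ℝ} (hq0 : 0 ≤ q) (hq1 : q ≤ 1) (hA : 0 ≤ A) (hα : |α| ≤ A * q)
    (hγ : |γ| ≤ A * q ^ 2) (K s : ℝ) :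
    |(K + vv α γ s) * dv α γ s - ((K + s) - α * w1 K s + γ * w2 K s + α ^ 2 * w3 s)| ≤
      5 * A ^ 2 * q ^ 3 := by
  have e : (K + vv α γ s) * dv α γ s - ((K + s) - α * w1 K s + γ * w2 K s + α ^ 2 * w3 s) =
      -(α * γ * (2 * (sin s * cos (2 * s)) + sin (2 * s) * cos s)) +
        γ ^ 2 * (2 * (sin (2 * s) * cos (2 * s))) := by
    unfold vv dv w1 w2 w3
    ring
  have h1 : |sin s * cos (2 * s)| ≤ 1 := by
    rw [abs_mul]
    exact mul_le_one₀ (abs_sin_le_one _) (abs_nonneg _) (abs_cos_le_one _)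
  have h2 : |sin (2 * s) * cos s| ≤ 1 := by
    rw [abs_mul]
    exact mul_le_one₀ (abs_sin_le_one _) (abs_nonneg _) (abs_cos_le_one _)
  have h3 : |sin (2 * s) * cos (2 * s)| ≤ 1 := by
    rw [abs_mul]
    exact mul_le_one₀ (abs_sin_le_one _) (abs_nonneg _) (abs_cos_le_one _)
  have h4 : |2 * (sin s * cos (2 * s)) + sin (2 * s) * cos s| ≤ 3 := by
    refine (abs_add_le _ _).trans ?_
    rw [abs_mul, abs_two]
    linarith
  have h5 : |2 * (sin (2 * s) * cos (2 * s))| ≤ 2 := by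
    rw [abs_mul, abs_two]
    linarith
  have h6 : q ^ 4 ≤ q ^ 3 := pow_le_pow_of_le_one hq0 hq1 (by norm_num)
  rw [e]
  refine (abs_add_le _ _).trans ?_
  rw [abs_neg, abs_mul, abs_mul, abs_mul, abs_pow]
  have b1 : |α| * |γ| * |2 * (sin s * cos (2 * s)) + sin (2 * s) * cos s| ≤ 3 * A ^ 2 * q ^ 3 := by
    calc _ ≤ (A * q) * (A * q ^ 2) * 3 := by gcongr
      _ = _ := by ring
  have b2 : |γ| ^ 2 * |2 * (sin (2 * s) * cos (2 * s))| ≤ 2 * A ^ 2 * q ^ 3 := by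
    calc _ ≤ (A * q ^ 2) ^ 2 * 2 := by gcongr
      _ = 2 * A ^ 2 * q ^ 4 := by ring
      _ ≤ 2 * A ^ 2 * q ^ 3 := by gcongr
  linarith

end Vale.Agent.P167.H212
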