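import Vale.Agent.P167.H212.Mono

/-!
# P167, Stage II (S2), file 4: integrals of monotone functions of an angle
-/

namespace Vale.Agent.P167.H212

open Set Filter Topology MeasureTheory Real

theorem mono_int {f : ℝ → ℝ} (hf : Monotone f) {ω : ℝ → ℝ} (hω : Continuous ω) :
    IntegrableOn (fun s => f s * ω s) (Ioo 0 π) := by
  have h1 : IntegrableOn f (Icc 0 π) := hf.monotoneOn _ |>.integrableOn_isCompact isCompact_Icc
  have h2 := h1.mul_continuousOn hω.continuousOn isCompact_Icc
  exact h2.mono_set Ioo_subset_Icc_self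

/-- A shift of a monotone function. -/
theorem shift_close {f : ℝ → ℝ} (hf : Monotone f) (h0 : ∀ x, 0 ≤ f x) (h1 : ∀ x, f x ≤ 1) {ε : ℝ}
    (hε : 0 ≤ ε) : ∫ s in Ioo 0 π, (f (s + ε) - f (s - ε)) ≤ 2 * ε := by
  have hi : ∀ a b : ℝ, IntervalIntegrable f volume a b := fun a b => hf.intervalIntegrable
  have m1 : Monotone fun s => f (s + ε) := fun x y h => hf (by linarith)
  have m2 : Monotone fun s => f (s - ε) := fun x y h => hf (by linarith)
  rw [← integral_Ioc_eq_integral_Ioo, ← intervalIntegral.integral_of_le pi_pos.le,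
    intervalIntegral.integral_sub m1.intervalIntegrable m2.intervalIntegrable,
    intervalIntegral.integral_comp_add_right, intervalIntegral.integral_comp_sub_right]
  have e : (∫ x in (0 + ε)..(π + ε), f x) - ∫ x in (0 - ε)..(π - ε), f x =
      (∫ x in (π - ε)..(π + ε), f x) - ∫ x in (0 - ε)..(0 + ε), f x := by
    have h2 := intervalIntegral.integral_add_adjacent_intervals (hi (0 - ε) (0 + ε))
      (hi (0 + ε) (π + ε))
    have h3 := intervalIntegral.integral_add_adjacent_intervals (hi (0 - ε) (π - ε))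
      (hi (π - ε) (π + ε))
    linarith
  rw [e]
  have h2 : ∫ x in (π - ε)..(π + ε), f x ≤ ∫ x in (π - ε)..(π + ε), (1 : ℝ) :=
    intervalIntegral.integral_mono_on (by linarith) (hi _ _) (by simp) fun x _ => h1 x
  have h3 : 0 ≤ ∫ x in (0 - ε)..(0 + ε), f x :=
    intervalIntegral.integral_nonneg (by linarith) fun x _ => h0 x
  rw [intervalIntegral.integral_const, smul_eq_mul, mul_one] at h2
  linarith

/-- A small perturbation of the argument of a monotone function. -/
theorem mono_close {f : ℝ → ℝ} (hf : Monotone f) (h0 : ∀ x, 0 ≤ f x) (h1 : ∀ x, f x ≤ 1)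
    {G ω : ℝ → ℝ} {ε M : ℝ} (hε : 0 ≤ ε) (hM : 0 ≤ M) (hG : ContinuousOn G (Ioo 0 π))
    (hω : Continuous ω) (hωM : ∀ s ∈ Ioo 0 π, |ω s| ≤ M)
    (hGs : ∀ s ∈ Ioo 0 π, |G s - s| ≤ ε) :
    |(∫ s in Ioo 0 π, f (G s) * ω s) - ∫ s in Ioo 0 π, f s * ω s| ≤ 2 * M * ε := by
  have m1 : Monotone fun s => f (s + ε) := fun x y h => hf (by linarith)
  have m2 : Monotone fun s => f (s - ε) := fun x y h => hf (by linarith)
  have hGm : AEMeasurable G (volume.restrict (Ioo 0 π)) := hG.aemeasurable measurableSet_Ioo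
  have hfG : AEMeasurable (fun s => f (G s)) (volume.restrict (Ioo 0 π)) :=
    hf.measurable.comp_aemeasurable hGm
  have hi1 : IntegrableOn (fun s => f (G s) * ω s) (Ioo 0 π) := by
    refine Integrable.of_bound (hfG.mul hω.measurable.aemeasurable).aestronglyMeasurable M ?_
    filter_upwards [self_mem_ae_restrict measurableSet_Ioo] with s hs
    rw [norm_mul, norm_eq_abs, norm_eq_abs, abs_of_nonneg (h0 _)]
    calc f (G s) * |ω s| ≤ 1 * M := mul_le_mul (h1 _) (hωM s hs) (abs_nonneg _) zero_le_one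
      _ = M := one_mul M
  have hi2 := mono_int hf hω
  rw [← integral_sub hi1 hi2, ← norm_eq_abs]
  have hi3 : IntegrableOn (fun s => (f (s + ε) - f (s - ε)) * M) (Ioo 0 π) := by
    have := (mono_int m1 (continuous_const (y := M))).sub (mono_int m2 (continuous_const (y := M)))
    refine this.congr (Eventually.of_forall fun s => ?_)
    simp only [Pi.sub_apply]
    ring
  refine (norm_integral_le_of_norm_le hi3 ?_).trans ?_
  · filter_upwards [self_mem_ae_restrict measurableSet_Ioo] with s hs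
    rw [← sub_mul, norm_mul, norm_eq_abs, norm_eq_abs]
    obtain ⟨h2, h3⟩ := abs_le.1 (hGs s hs)
    have h4 : f (s - ε) ≤ f (G s) := hf (by linarith)
    have h5 : f (G s) ≤ f (s + ε) := hf (by linarith)
    have h6 : f (s - ε) ≤ f s := hf (by linarith)
    have h7 : f s ≤ f (s + ε) := hf (by linarith)
    have h8 : |f (G s) - f s| ≤ f (s + ε) - f (s - ε) := by
      rw [abs_le]
      constructor <;> linarith
    exact mul_le_mul h8 (hωM s hs) (abs_nonneg _) (by linarith)
  · rw [integral_mul_const]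
    have := shift_close hf h0 h1 hε
    nlinarith

/-! ### The coefficients -/

/-- Odd weights. -/
theorem odd_neg {f : ℝ → ℝ} (hf : Monotone f) (hn : ∃ x ∈ Ioo 0 π, ∃ y ∈ Ioo 0 π, f x ≠ f y)
    {k : ℝ → ℝ} (hk : Continuous k) (hodd : ∀ s, k (π - s) = -k s)
    (hpos : ∀ s ∈ Ioo 0 (π / 2), 0 < k s) : ∫ s in Ioo 0 π, f s * k s < 0 := by
  have hp := pi_pos
  obtain ⟨x, hx, y, hy, hxy, hfxy⟩ : ∃ x ∈ Ioo 0 π, ∃ y ∈ Ioo 0 π, x ≤ y ∧ f x < f y := by
    obtain ⟨x, hx, y, hy, h⟩ := hn
    rcases le_total x y with h1 | h1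
    · exact ⟨x, hx, y, hy, h1, lt_of_le_of_ne (hf h1) h⟩
    · exact ⟨y, hy, x, hx, h1, lt_of_le_of_ne (hf h1) (Ne.symm h)⟩
  have hii : ∀ (g : ℝ → ℝ) (a b : ℝ), (Monotone g ∨ Antitone g) →
      IntervalIntegrable (fun s => g s * k s) volume a b := by
    intro g a b hg
    have h1 : IntervalIntegrable g volume a b := by
      rcases hg with hg | hg
      · exact hg.intervalIntegrable
      · exact hg.intervalIntegrable
    exact h1.mul_continuousOn hk.continuousOn
  have hanti : Antitone fun s => f (π - s) := fun a b h => hf (by linarith)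
  rw [← integral_Ioc_eq_integral_Ioo, ← intervalIntegral.integral_of_le hp.le]
  have h1 : ∫ s in (0 : ℝ)..π, f s * k s = -∫ s in (0 : ℝ)..π, f (π - s) * k s := by
    have h2 := intervalIntegral.integral_comp_sub_left (a := (0 : ℝ)) (b := π)
      (fun s => f s * k s) π
    rw [sub_self, sub_zero] at h2
    rw [← h2, ← intervalIntegral.integral_neg]
    refine intervalIntegral.integral_congr fun s _ => ?_
    simp only [hodd s]
    ring
  have h2 : 2 * ∫ s in (0 : ℝ)..π, f s * k s = -∫ s in (0 : ℝ)..π, (f (π - s) - f s) * k s := by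
    have h3 : ∫ s in (0 : ℝ)..π, (f (π - s) - f s) * k s =
        (∫ s in (0 : ℝ)..π, f (π - s) * k s) - ∫ s in (0 : ℝ)..π, f s * k s := by
      rw [← intervalIntegral.integral_sub (hii _ _ _ (Or.inr hanti)) (hii _ _ _ (Or.inl hf))]
      refine intervalIntegral.integral_congr fun s _ => ?_
      ring
    linarith
  -- the integrand is nonnegative
  have hnn : ∀ s ∈ Icc 0 π, 0 ≤ (f (π - s) - f s) * k s := by
    intro s hs
    have hk0 : ∀ s ∈ Icc 0 (π / 2), 0 ≤ k s := by
      intro s hs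
      have hcl : Icc (0 : ℝ) (π / 2) ⊆ {s | 0 ≤ k s} := by
        have h3 : IsClosed {s | 0 ≤ k s} := isClosed_le continuous_const hk
        have h4 : closure (Ioo (0 : ℝ) (π / 2)) ⊆ {s | 0 ≤ k s} :=
          h3.closure_subset_iff.2 fun s hs => (hpos s hs).le
        rwa [closure_Ioo (by positivity)] at h4
      exact hcl hs
    rcases le_total s (π / 2) with h3 | h3
    · exact mul_nonneg (sub_nonneg.2 (hf (by linarith))) (hk0 s ⟨hs.1, h3⟩)
    · have h4 := hk0 (π - s) ⟨by linarith [hs.2], by linarith⟩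
      rw [hodd] at h4
      exact mul_nonneg_of_nonpos_of_nonpos (sub_nonpos.2 (hf (by linarith))) (by linarith)
  -- a positive part
  obtain ⟨m, hm⟩ : ∃ m, m = min (π / 2) (min x (π - y)) := ⟨_, rfl⟩
  have hm0 : 0 < m := by
    rw [hm]
    exact lt_min (by positivity) (lt_min hx.1 (by linarith [hy.2]))
  have hm1 : m ≤ π / 2 := by rw [hm]; exact min_le_left _ _
  have hm2 : m ≤ x := by rw [hm]; exact (min_le_right _ _).trans (min_le_left _ _)
  have hm3 : m ≤ π - y := by rw [hm]; exact (min_le_right _ _).trans (min_le_right _ _)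
  have h3 : ∫ s in (0 : ℝ)..m, (f y - f x) * k s ≤ ∫ s in (0 : ℝ)..m, (f (π - s) - f s) * k s := by
    refine intervalIntegral.integral_mono_on hm0.le ?_ ?_ fun s hs => ?_
    · exact (hk.const_mul _).intervalIntegrable _ _
    · have h4 := (hii _ 0 m (Or.inr hanti)).sub (hii _ 0 m (Or.inl hf))
      refine h4.congr fun s _ => ?_
      change f (π - s) * k s - f s * k s = _
      ring
    · have h4 : 0 ≤ k s := by
        rcases eq_or_lt_of_le hs.1 with h5 | h5
        · rw [← h5]
          have h6 : Tendsto k (𝓝[>] 0) (𝓝 (k 0)) := hk.continuousAt.continuousWithinAt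
          refine ge_of_tendsto h6 ?_
          filter_upwards [Ioo_mem_nhdsGT (show (0 : ℝ) < π / 2 by positivity)] with u hu
          exact (hpos u hu).le
        · rcases eq_or_lt_of_le (hs.2.trans hm1) with h6 | h6
          · rw [h6]
            have h7 := hodd (π / 2)
            have e : π - π / 2 = π / 2 := by ring
            rw [e] at h7
            linarith
          · exact (hpos s ⟨h5, h6⟩).le
      have h5 : f s ≤ f x := hf (by linarith [hs.2])
      have h6 : f y ≤ f (π - s) := hf (by linarith [hs.2])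
      exact mul_le_mul_of_nonneg_right (by linarith) h4
  have h4 : 0 < ∫ s in (0 : ℝ)..m, (f y - f x) * k s := by
    rw [intervalIntegral.integral_const_mul]
    refine mul_pos (sub_pos.2 hfxy) ?_
    exact intervalIntegral.intervalIntegral_pos_of_pos_on (hk.intervalIntegrable _ _)
      (fun s hs => hpos s ⟨hs.1, hs.2.trans_le hm1⟩) hm0
  have h5 : ∫ s in (0 : ℝ)..m, (f (π - s) - f s) * k s ≤
      ∫ s in (0 : ℝ)..π, (f (π - s) - f s) * k s := by
    have hi : ∀ a b, IntervalIntegrable (fun s => (f (π - s) - f s) * k s) volume a b := by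
      intro a b
      have h4 := (hii _ a b (Or.inr hanti)).sub (hii _ a b (Or.inl hf))
      refine h4.congr fun s _ => ?_
      change f (π - s) * k s - f s * k s = _
      ring
    have h6 := intervalIntegral.integral_add_adjacent_intervals (hi 0 m) (hi m π)
    have h7 : 0 ≤ ∫ s in m..π, (f (π - s) - f s) * k s :=
      intervalIntegral.integral_nonneg (by linarith) fun s hs =>
        hnn s ⟨hm0.le.trans hs.1, hs.2⟩
    linarith
  linarith

theorem j3_neg {f : ℝ → ℝ} (hf : Monotone f) (hn : ∃ x ∈ Ioo 0 π, ∃ y ∈ Ioo 0 π, f x ≠ f y) :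
    ∫ s in Ioo 0 π, f s * w3 s < 0 := by
  refine odd_neg hf hn (by unfold w3; fun_prop) (fun s => ?_) fun s hs => ?_
  · unfold w3
    rw [sin_pi_sub, cos_pi_sub]
    ring
  · have h1 : 0 < sin s := sin_pos_of_pos_of_lt_pi hs.1 (by linarith [hs.2, pi_pos])
    have h2 : 0 < cos s := cos_pos_of_mem_Ioo ⟨by linarith [hs.1, pi_pos], hs.2⟩
    exact mul_pos h1 h2

theorem jc_neg {f : ℝ → ℝ} (hf : Monotone f) (hn : ∃ x ∈ Ioo 0 π, ∃ y ∈ Ioo 0 π, f x ≠ f y) :
    ∫ s in Ioo 0 π, f s * cos s < 0 := by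
  refine odd_neg hf hn continuous_cos (fun s => cos_pi_sub s) fun s hs => ?_
  exact cos_pos_of_mem_Ioo ⟨by linarith [hs.1, pi_pos], hs.2⟩

/-- One of two weights has a nonzero first coefficient. -/
theorem exists_K {f : ℝ → ℝ} (hf : Monotone f)
    (hn : ∃ x ∈ Ioo 0 π, ∃ y ∈ Ioo 0 π, f x ≠ f y) :
    ∃ K : ℝ, 0 ≤ K ∧ ∫ s in Ioo 0 π, f s * w1 K s ≠ 0 := by
  by_contra h
  push Not at h
  have h1 := h 0 le_rfl
  have h2 := h 1 zero_le_one
  have hc : ∀ K, Continuous (w1 K) := fun K => by unfold w1; fun_prop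
  have h3 : ∫ s in Ioo 0 π, f s * cos s = (∫ s in Ioo 0 π, f s * w1 1 s) -
      ∫ s in Ioo 0 π, f s * w1 0 s := by
    rw [← integral_sub (mono_int hf (hc 1)) (mono_int hf (hc 0))]
    refine integral_congr_ae (Eventually.of_forall fun s => ?_)
    simp only [w1]
    ring
  rw [h1, h2, sub_zero] at h3
  exact (jc_neg hf hn).ne h3

end Vale.Agent.P167.H212
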