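import Vale.Agent.P167.H212.ArgFlow
import Vale.Agent.P167.H212.Mono2
import Vale.Agent.P167.H411.ObsG

/-!
# P167, Stage II (S2), file 5: the interior observable and its expansion at infinity

`obsL f K W b t = ∫_0^π f (arg (g_t(b e^{i θ}) - W_t)) (K + θ) dθ` for a monotone function `f` of the
angle.  `expn_obsL`: it has an expansion `c₀ + c₁ W_t / b + c₂ (W_t² - v t) / b² + O(b⁻³)` with
`c₂ ≠ 0`, and `c₁ ≠ 0` for some `K`.
-/

namespace Vale.Agent.P167.H212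

open Set Filter Topology MeasureTheory Vale.Agent.P153.BESS Vale.Agent.P167.H411
open Vale.Agent.P164 hiding flow
open Vale.Agent.P167.H947

/-- The interior observable. -/
noncomputable def obsL (f : ℝ → ℝ) (K : ℝ) (W : ℝ → ℝ) (b t : ℝ) : ℝ :=
  ∫ θ in Ioo 0 Real.pi, f ((flow W t (pz b θ) - W t).arg) * (K + θ)

/-- The coefficients of its expansion. -/
noncomputable def j0 (f : ℝ → ℝ) (K : ℝ) : ℝ := ∫ s in Ioo 0 Real.pi, f s * (K + s)
noncomputable def j1 (f : ℝ → ℝ) (K : ℝ) : ℝ := ∫ s in Ioo 0 Real.pi, f s * w1 K s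
noncomputable def j2 (f : ℝ → ℝ) (K : ℝ) : ℝ := ∫ s in Ioo 0 Real.pi, f s * w2 K s
noncomputable def j3 (f : ℝ → ℝ) : ℝ := ∫ s in Ioo 0 Real.pi, f s * w3 s

/-- **The expansion of the interior observable.** -/
theorem obsL_expansion {f : ℝ → ℝ} (hf : Monotone f) (h0 : ∀ x, 0 ≤ f x) (h1 : ∀ x, f x ≤ 1)
    {K : ℝ} (hK : 0 ≤ K) {T R : ℝ} (hT : 0 ≤ T) (hR : 0 ≤ R) : ∃ C b₀ : ℝ, 0 ≤ C ∧ 0 < b₀ ∧
    ∀ (W : ℝ → ℝ) (b t : ℝ), 0 ≤ t → t ≤ T → ContinuousOn W (Icc 0 t) →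
      (∀ s ∈ Icc 0 t, |W s| ≤ R) → b₀ ≤ b →
      |obsL f K W b t - (j0 f K - j1 f K * W t / b +
        (j3 f * W t ^ 2 + 2 * j2 f K * t) / b ^ 2)| ≤ C / b ^ 3 := by
  obtain ⟨C1, b1, hC1, hb1, harg⟩ := arg_flow hT hR
  obtain ⟨A, hA⟩ : ∃ A, A = R + 2 * T := ⟨_, rfl⟩
  have hA0 : 0 ≤ A := by rw [hA]; positivity
  obtain ⟨C2, hC2⟩ : ∃ C2, C2 = 8 * A ^ 3 + 5 * A ^ 2 := ⟨_, rfl⟩
  have hC20 : 0 ≤ C2 := by rw [hC2]; positivity
  have hp := Real.pi_pos
  obtain ⟨M, hM⟩ : ∃ M, M = 2 * (K + Real.pi) := ⟨_, rfl⟩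
  have hM0 : 0 ≤ M := by rw [hM]; positivity
  refine ⟨2 * M * (C1 + C2) + 5 * A ^ 2 * Real.pi, 1 + b1 + 4 * A, by positivity, by positivity, ?_⟩
  intro W b t ht htT hW hWR hb
  have hb1' : 1 ≤ b := by linarith
  have hb0 : 0 < b := by linarith
  obtain ⟨q, hq⟩ : ∃ q, q = b⁻¹ := ⟨_, rfl⟩
  have hq0 : 0 < q := by rw [hq]; positivity
  have hq1 : q ≤ 1 := by rw [hq]; exact inv_le_one_of_one_le₀ hb1'
  have hAq : 4 * A * q ≤ 1 := by
    rw [hq, ← div_eq_mul_inv, div_le_iff₀ hb0]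
    linarith
  obtain ⟨α, hα⟩ : ∃ α, α = W t / b := ⟨_, rfl⟩
  obtain ⟨γ, hγ⟩ : ∃ γ, γ = 2 * t / b ^ 2 := ⟨_, rfl⟩
  have hαA : |α| ≤ A * q := by
    rw [hα, abs_div, abs_of_pos hb0, hq, div_eq_mul_inv]
    apply mul_le_mul_of_nonneg_right _ (by positivity)
    rw [hA]
    linarith [hWR t ⟨ht, le_rfl⟩]
  have hγA : |γ| ≤ A * q ^ 2 := by
    rw [hγ, abs_of_nonneg (by positivity), hq, inv_pow, div_eq_mul_inv]
    apply mul_le_mul_of_nonneg_right _ (by positivity)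
    rw [hA]
    linarith
  have hγA2 : |γ| ≤ A * q := hγA.trans (mul_le_mul_of_nonneg_left (by nlinarith) hA0)
  have hsmall : |α| + 2 * |γ| < 1 := by
    have : 0 ≤ A * q := by positivity
    linarith
  -- the angle in the new variable
  obtain ⟨Φ, hΦ⟩ : ∃ Φ : ℝ → ℝ, Φ = fun θ => (flow W t (pz b θ) - W t).arg := ⟨_, rfl⟩
  have hΦb : ∀ θ ∈ Ioo 0 Real.pi, pz b θ ∈ surv W t ∧ 0 < (flow W t (pz b θ) - W t).im ∧
      |Φ θ - mainU (W t) t b θ| ≤ C1 / b ^ 3 := fun θ hθ => by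
    rw [hΦ]
    exact harg W b t ht htT hW hWR (by linarith) θ hθ.1 hθ.2
  have hΦc : ContinuousOn Φ (Ioo 0 Real.pi) := by
    intro θ hθ
    obtain ⟨⟨g, hg⟩, him, -⟩ := hΦb θ hθ
    have h2 : ContinuousAt (fun θ => flow W t (pz b θ) - W t) θ :=
      ((hasDerivAt_flow ht hW hg).continuousAt.comp (continuous_pz b).continuousAt).sub
        continuousAt_const
    have h3 : (flow W t (pz b θ) - W t) ∈ Complex.slitPlane := by
      rw [Complex.mem_slitPlane_iff]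
      exact Or.inr him.ne'
    rw [hΦ]
    exact (ContinuousAt.comp (f := fun θ => flow W t (pz b θ) - W t)
      (Complex.continuousAt_arg h3) h2).continuousWithinAt
  have hG : ∀ s ∈ Ioo 0 Real.pi, |Φ (vv α γ s) - s| ≤ (C1 + C2) * q ^ 3 := by
    intro s hs
    have h2 := (hΦb _ (vv_mem hsmall hs)).2.2
    have h3 := abs_ang_vv hq0.le hq1 hA0 hαA hγA (by linarith [mul_nonneg hA0 hq0.le]) s
    have e : mainU (W t) t b (vv α γ s) = vv α γ s + α * Real.sin (vv α γ s) +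
        (α ^ 2 / 2 - γ) * Real.sin (2 * vv α γ s) := by
      unfold mainU
      rw [hα, hγ]
      have hbne : b ≠ 0 := hb0.ne'
      congr 2
      field_simp
    rw [e] at h2
    have h4 : C1 / b ^ 3 = C1 * q ^ 3 := by rw [hq, inv_pow, div_eq_mul_inv]
    rw [h4] at h2
    have e2 : Φ (vv α γ s) - s = (Φ (vv α γ s) - (vv α γ s + α * Real.sin (vv α γ s) +
        (α ^ 2 / 2 - γ) * Real.sin (2 * vv α γ s))) + (vv α γ s + α * Real.sin (vv α γ s) +
        (α ^ 2 / 2 - γ) * Real.sin (2 * vv α γ s) - s) := by ring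
    rw [e2, add_mul]
    rw [← hC2] at h3
    exact (abs_add_le _ _).trans (add_le_add h2 h3)
  -- the change of variables
  have s1 : obsL f K W b t = ∫ s in Ioo 0 Real.pi, f (Φ (vv α γ s)) *
      ((K + vv α γ s) * dv α γ s) := by
    have h2 : obsL f K W b t = ∫ θ in Ioo 0 Real.pi, f (Φ θ) * (K + θ) := by
      rw [hΦ]
      rfl
    rw [h2, integral_vv hsmall]
    refine integral_congr_ae (Eventually.of_forall fun s => ?_)
    simp only
    ring
  obtain ⟨ω, hω⟩ : ∃ ω : ℝ → ℝ, ω = fun s => (K + vv α γ s) * dv α γ s := ⟨_, rfl⟩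
  have hωc : Continuous ω := by
    rw [hω]
    exact (continuous_const.add (continuous_vv α γ)).mul (continuous_dv α γ)
  have hωM : ∀ s ∈ Ioo 0 Real.pi, |ω s| ≤ M := by
    intro s hs
    have h2 := vv_mem hsmall hs
    have h3 := dv_pos hsmall s
    have h4 := dv_le hsmall s
    rw [hω, hM]
    simp only
    rw [abs_mul, abs_of_pos h3, abs_of_nonneg (by linarith [h2.1])]
    calc (K + vv α γ s) * dv α γ s ≤ (K + Real.pi) * 2 :=
          mul_le_mul (by linarith [h2.2]) h4 h3.le (by linarith)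
      _ = 2 * (K + Real.pi) := by ring
  have s2 : |obsL f K W b t - ∫ s in Ioo 0 Real.pi, f s * ω s| ≤
      2 * M * ((C1 + C2) * q ^ 3) := by
    rw [s1]
    have h2 := mono_close hf h0 h1 (G := fun s => Φ (vv α γ s)) (ω := ω)
      (ε := (C1 + C2) * q ^ 3) (by positivity) hM0
      (hΦc.comp (continuous_vv α γ).continuousOn fun s hs => vv_mem hsmall hs) hωc hωM hG
    rw [hω] at h2 ⊢
    exact h2
  -- the weights
  have hcw0 : Continuous fun s : ℝ => K + s := by fun_prop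
  have hcw1 : Continuous (w1 K) := by unfold w1; fun_prop
  have hcw2 : Continuous (w2 K) := by unfold w2; fun_prop
  have hcw3 : Continuous w3 := by unfold w3; fun_prop
  obtain ⟨ω', hω'⟩ : ∃ ω' : ℝ → ℝ, ω' = fun s => (K + s) - α * w1 K s + γ * w2 K s +
    α ^ 2 * w3 s := ⟨_, rfl⟩
  have hω'c : Continuous ω' := by
    rw [hω']
    fun_prop
  have s3 : ∫ s in Ioo 0 Real.pi, f s * ω' s =
      j0 f K - α * j1 f K + γ * j2 f K + α ^ 2 * j3 f := by
    have i0 := mono_int hf hcw0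
    have i1 := (mono_int hf hcw1).const_mul α
    have i2 := (mono_int hf hcw2).const_mul γ
    have i3 := (mono_int hf hcw3).const_mul (α ^ 2)
    have e : (fun s => f s * ω' s) = fun s => ((f s * (K + s) - α * (f s * w1 K s)) +
        γ * (f s * w2 K s)) + α ^ 2 * (f s * w3 s) := by
      funext s
      rw [hω']
      ring
    have k1 := integral_add ((i0.sub i1).add i2) i3
    have k2 := integral_add (i0.sub i1) i2
    have k3 := integral_sub i0 i1
    simp only [Pi.sub_apply, Pi.add_apply] at k1 k2 k3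
    rw [e, k1, k2, k3, integral_const_mul, integral_const_mul, integral_const_mul]
    rfl
  have s4 : |(∫ s in Ioo 0 Real.pi, f s * ω s) - ∫ s in Ioo 0 Real.pi, f s * ω' s| ≤
      5 * A ^ 2 * Real.pi * q ^ 3 := by
    rw [← integral_sub (mono_int hf hωc) (mono_int hf hω'c), ← Real.norm_eq_abs]
    have h2 : ∀ s ∈ Ioo 0 Real.pi, ‖f s * ω s - f s * ω' s‖ ≤ 5 * A ^ 2 * q ^ 3 := by
      intro s _
      rw [← mul_sub, norm_mul, Real.norm_eq_abs, Real.norm_eq_abs, abs_of_nonneg (h0 _)]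
      have h3 := abs_wt_vv hq0.le hq1 hA0 hαA hγA K s
      have h4 : ω s - ω' s = (K + vv α γ s) * dv α γ s -
          ((K + s) - α * w1 K s + γ * w2 K s + α ^ 2 * w3 s) := by rw [hω, hω']
      rw [h4]
      calc _ ≤ 1 * (5 * A ^ 2 * q ^ 3) := mul_le_mul (h1 s) h3 (abs_nonneg _) zero_le_one
        _ = _ := one_mul _
    have h3 := norm_setIntegral_le_of_norm_le_const (μ := volume) (s := Ioo 0 Real.pi)
      (by rw [Real.volume_Ioo]; exact ENNReal.ofReal_lt_top) h2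
    refine h3.trans (le_of_eq ?_)
    rw [Measure.real, Real.volume_Ioo, ENNReal.toReal_ofReal (by linarith)]
    ring
  have e1 : j0 f K - j1 f K * W t / b + (j3 f * W t ^ 2 + 2 * j2 f K * t) / b ^ 2 =
      ∫ s in Ioo 0 Real.pi, f s * ω' s := by
    rw [s3, hα, hγ]
    ring
  rw [e1]
  have e2 : obsL f K W b t - ∫ s in Ioo 0 Real.pi, f s * ω' s =
      (obsL f K W b t - ∫ s in Ioo 0 Real.pi, f s * ω s) +
      ((∫ s in Ioo 0 Real.pi, f s * ω s) - ∫ s in Ioo 0 Real.pi, f s * ω' s) := by ring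
  rw [e2]
  refine (abs_add_le _ _).trans ((add_le_add s2 s4).trans (le_of_eq ?_))
  rw [hq, inv_pow, div_eq_mul_inv]
  ring

/-- **`Expn` for the interior observable.** -/
theorem expn_obsL {f : ℝ → ℝ} (hf : Monotone f) (h0 : ∀ x, 0 ≤ f x) (h1 : ∀ x, f x ≤ 1)
    (hn : ∃ x ∈ Ioo 0 Real.pi, ∃ y ∈ Ioo 0 Real.pi, f x ≠ f y) :
    ∃ K v c₀ c₁ c₂ : ℝ, 0 ≤ K ∧ Expn (obsL f K) v c₀ c₁ c₂ := by
  obtain ⟨K, hK, hK1⟩ := exists_K hf hn
  have h3 : j3 f ≠ 0 := (j3_neg hf hn).ne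
  refine ⟨K, -2 * j2 f K / j3 f, j0 f K, -j1 f K, j3 f, hK, ?_, h3, ?_⟩
  · exact neg_ne_zero.2 hK1
  · intro T R hT hR
    obtain ⟨C, b₀, hC, hb₀, h⟩ := obsL_expansion hf h0 h1 hK hT hR
    refine ⟨C, b₀, hC, hb₀, fun W b t ht htT hW hWR hb => ?_⟩
    have h4 := h W b t ht htT hW hWR hb
    have e : j0 f K + -j1 f K * W t / b + j3 f * (W t ^ 2 - -2 * j2 f K / j3 f * t) / b ^ 2 =
        j0 f K - j1 f K * W t / b + (j3 f * W t ^ 2 + 2 * j2 f K * t) / b ^ 2 := by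
      have : j3 f * (W t ^ 2 - -2 * j2 f K / j3 f * t) = j3 f * W t ^ 2 + 2 * j2 f K * t := by
        field_simp
        ring
      rw [this]
      ring
    rw [e]
    exact h4

end Vale.Agent.P167.H212
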