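import Vale.Agent.P167.H212.ObsL
import Mathlib.Analysis.SumIntegralComparisons

/-!
# P167, Stage II (S2), file 7: the interior observable as a finite sum

`obsR f K W b t = (π / N) Σ_j f (arg (g_t(b e^{i θ_j}) - W_t)) (K + θ_j)`, `θ_j = j π / N`,
`0 < j < N`, `N = ⌈b³⌉ + 1`.  It is a finite linear combination of the pointwise observables
`ptL f θ`.  `expn_obsR`: it has an expansion `c₀ + c₁ W_t / b + c₂ (W_t² - v t) / b² + O(b⁻³)`.
-/

namespace Vale.Agent.P167.H212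

open Set Filter Topology MeasureTheory Vale.Agent.P153.BESS Vale.Agent.P167.H411
open Vale.Agent.P164 hiding flow
open Vale.Agent.P167.H947

/-- The expansion for a general angle function. -/
theorem gen_expansion {f : ℝ → ℝ} (hf : Monotone f) (h0 : ∀ x, 0 ≤ f x) (h1 : ∀ x, f x ≤ 1)
    {K : ℝ} (hK : 0 ≤ K) {T R C1 : ℝ} (hT : 0 ≤ T) (hR : 0 ≤ R) (hC1 : 0 ≤ C1) :
    ∃ C b₀ : ℝ, 0 ≤ C ∧ 0 < b₀ ∧ ∀ (w b t : ℝ) (Φ : ℝ → ℝ), 0 ≤ t → t ≤ T → |w| ≤ R → b₀ ≤ b →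
      ContinuousOn Φ (Ioo 0 Real.pi) → (∀ θ ∈ Ioo 0 Real.pi, |Φ θ - mainU w t b θ| ≤ C1 / b ^ 3) →
      |(∫ θ in Ioo 0 Real.pi, f (Φ θ) * (K + θ)) - (j0 f K - j1 f K * w / b +
        (j3 f * w ^ 2 + 2 * j2 f K * t) / b ^ 2)| ≤ C / b ^ 3 := by
  obtain ⟨A, hA⟩ : ∃ A, A = R + 2 * T := ⟨_, rfl⟩
  have hA0 : 0 ≤ A := by rw [hA]; positivity
  obtain ⟨C2, hC2⟩ : ∃ C2, C2 = 8 * A ^ 3 + 5 * A ^ 2 := ⟨_, rfl⟩
  have hC20 : 0 ≤ C2 := by rw [hC2]; positivity
  have hp := Real.pi_pos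
  obtain ⟨M, hM⟩ : ∃ M, M = 2 * (K + Real.pi) := ⟨_, rfl⟩
  have hM0 : 0 ≤ M := by rw [hM]; positivity
  refine ⟨2 * M * (C1 + C2) + 5 * A ^ 2 * Real.pi, 1 + 4 * A, by positivity, by positivity, ?_⟩
  intro w b t Φ ht htT hwR hb hΦc hΦb
  have hb1' : 1 ≤ b := by linarith
  have hb0 : 0 < b := by linarith
  obtain ⟨q, hq⟩ : ∃ q, q = b⁻¹ := ⟨_, rfl⟩
  have hq0 : 0 < q := by rw [hq]; positivity
  have hq1 : q ≤ 1 := by rw [hq]; exact inv_le_one_of_one_le₀ hb1'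
  have hAq : 4 * A * q ≤ 1 := by
    rw [hq, ← div_eq_mul_inv, div_le_iff₀ hb0]
    linarith
  obtain ⟨α, hα⟩ : ∃ α, α = w / b := ⟨_, rfl⟩
  obtain ⟨γ, hγ⟩ : ∃ γ, γ = 2 * t / b ^ 2 := ⟨_, rfl⟩
  have hαA : |α| ≤ A * q := by
    rw [hα, abs_div, abs_of_pos hb0, hq, div_eq_mul_inv]
    apply mul_le_mul_of_nonneg_right _ (by positivity)
    rw [hA]
    linarith
  have hγA : |γ| ≤ A * q ^ 2 := by
    rw [hγ, abs_of_nonneg (by positivity), hq, inv_pow, div_eq_mul_inv]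
    apply mul_le_mul_of_nonneg_right _ (by positivity)
    rw [hA]
    linarith
  have hγA2 : |γ| ≤ A * q := hγA.trans (mul_le_mul_of_nonneg_left (by nlinarith) hA0)
  have hsmall : |α| + 2 * |γ| < 1 := by
    have : 0 ≤ A * q := by positivity
    linarith
  have hG : ∀ s ∈ Ioo 0 Real.pi, |Φ (vv α γ s) - s| ≤ (C1 + C2) * q ^ 3 := by
    intro s hs
    have h2 := (hΦb _ (vv_mem hsmall hs))
    have h3 := abs_ang_vv hq0.le hq1 hA0 hαA hγA (by linarith [mul_nonneg hA0 hq0.le]) s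
    have e : mainU w t b (vv α γ s) = vv α γ s + α * Real.sin (vv α γ s) +
        (α ^ 2 / 2 - γ) * Real.sin (2 * vv α γ s) := by
      unfold mainU
      rw [hα, hγ]
      have hbne : b ≠ 0 := hb0.ne'
      congr 2
      field_simp
    rw [e] at h2
    have h4 : C1 / b ^ 3 = C1 * q ^ 3 := by rw [hq, inv_pow, div_eq_mul_inv]
    rw [h4] at h2
    have e2 : Φ (vv α γ s) - s = (Φ (vv α γ s) - (vv α γ s + α * Real.sin (vv α γ s) +
        (α ^ 2 / 2 - γ) * Real.sin (2 * vv α γ s))) + (vv α γ s + α * Real.sin (vv α γ s) +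
        (α ^ 2 / 2 - γ) * Real.sin (2 * vv α γ s) - s) := by ring
    rw [e2, add_mul]
    rw [← hC2] at h3
    exact (abs_add_le _ _).trans (add_le_add h2 h3)
  have s1 : (∫ θ in Ioo 0 Real.pi, f (Φ θ) * (K + θ)) = ∫ s in Ioo 0 Real.pi,
      f (Φ (vv α γ s)) * ((K + vv α γ s) * dv α γ s) := by
    rw [integral_vv hsmall]
    refine integral_congr_ae (Eventually.of_forall fun s => ?_)
    simp only
    ring
  obtain ⟨ω, hω⟩ : ∃ ω : ℝ → ℝ, ω = fun s => (K + vv α γ s) * dv α γ s := ⟨_, rfl⟩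
  have hωc : Continuous ω := by
    rw [hω]
    exact (continuous_const.add (continuous_vv α γ)).mul (continuous_dv α γ)
  have hωM : ∀ s ∈ Ioo 0 Real.pi, |ω s| ≤ M := by
    intro s hs
    have h2 := vv_mem hsmall hs
    have h3 := dv_pos hsmall s
    have h4 := dv_le hsmall s
    rw [hω, hM]
    simp only
    rw [abs_mul, abs_of_pos h3, abs_of_nonneg (by linarith [h2.1])]
    calc (K + vv α γ s) * dv α γ s ≤ (K + Real.pi) * 2 :=
          mul_le_mul (by linarith [h2.2]) h4 h3.le (by linarith)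
      _ = 2 * (K + Real.pi) := by ring
  have s2 : |(∫ θ in Ioo 0 Real.pi, f (Φ θ) * (K + θ)) - ∫ s in Ioo 0 Real.pi, f s * ω s| ≤
      2 * M * ((C1 + C2) * q ^ 3) := by
    rw [s1]
    have h2 := mono_close hf h0 h1 (G := fun s => Φ (vv α γ s)) (ω := ω)
      (ε := (C1 + C2) * q ^ 3) (by positivity) hM0
      (hΦc.comp (continuous_vv α γ).continuousOn fun s hs => vv_mem hsmall hs) hωc hωM hG
    rw [hω] at h2 ⊢
    exact h2
  have hcw0 : Continuous fun s : ℝ => K + s := by fun_prop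
  have hcw1 : Continuous (w1 K) := by unfold w1; fun_prop
  have hcw2 : Continuous (w2 K) := by unfold w2; fun_prop
  have hcw3 : Continuous w3 := by unfold w3; fun_prop
  obtain ⟨ω', hω'⟩ : ∃ ω' : ℝ → ℝ, ω' = fun s => (K + s) - α * w1 K s + γ * w2 K s +
    α ^ 2 * w3 s := ⟨_, rfl⟩
  have hω'c : Continuous ω' := by
    rw [hω']
    fun_prop
  have s3 : ∫ s in Ioo 0 Real.pi, f s * ω' s =
      j0 f K - α * j1 f K + γ * j2 f K + α ^ 2 * j3 f := by
    have i0 := mono_int hf hcw0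
    have i1 := (mono_int hf hcw1).const_mul α
    have i2 := (mono_int hf hcw2).const_mul γ
    have i3 := (mono_int hf hcw3).const_mul (α ^ 2)
    have e : (fun s => f s * ω' s) = fun s => ((f s * (K + s) - α * (f s * w1 K s)) +
        γ * (f s * w2 K s)) + α ^ 2 * (f s * w3 s) := by
      funext s
      rw [hω']
      ring
    have k1 := integral_add ((i0.sub i1).add i2) i3
    have k2 := integral_add (i0.sub i1) i2
    have k3 := integral_sub i0 i1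
    simp only [Pi.sub_apply, Pi.add_apply] at k1 k2 k3
    rw [e, k1, k2, k3, integral_const_mul, integral_const_mul, integral_const_mul]
    rfl
  have s4 : |(∫ s in Ioo 0 Real.pi, f s * ω s) - ∫ s in Ioo 0 Real.pi, f s * ω' s| ≤
      5 * A ^ 2 * Real.pi * q ^ 3 := by
    rw [← integral_sub (mono_int hf hωc) (mono_int hf hω'c), ← Real.norm_eq_abs]
    have h2 : ∀ s ∈ Ioo 0 Real.pi, ‖f s * ω s - f s * ω' s‖ ≤ 5 * A ^ 2 * q ^ 3 := by
      intro s _
      rw [← mul_sub, norm_mul, Real.norm_eq_abs, Real.norm_eq_abs, abs_of_nonneg (h0 _)]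
      have h3 := abs_wt_vv hq0.le hq1 hA0 hαA hγA K s
      have h4 : ω s - ω' s = (K + vv α γ s) * dv α γ s -
          ((K + s) - α * w1 K s + γ * w2 K s + α ^ 2 * w3 s) := by rw [hω, hω']
      rw [h4]
      calc _ ≤ 1 * (5 * A ^ 2 * q ^ 3) := mul_le_mul (h1 s) h3 (abs_nonneg _) zero_le_one
        _ = _ := one_mul _
    have h3 := norm_setIntegral_le_of_norm_le_const (μ := volume) (s := Ioo 0 Real.pi)
      (by rw [Real.volume_Ioo]; exact ENNReal.ofReal_lt_top) h2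
    refine h3.trans (le_of_eq ?_)
    rw [Measure.real, Real.volume_Ioo, ENNReal.toReal_ofReal (by linarith)]
    ring
  have e1 : j0 f K - j1 f K * w / b + (j3 f * w ^ 2 + 2 * j2 f K * t) / b ^ 2 =
      ∫ s in Ioo 0 Real.pi, f s * ω' s := by
    rw [s3, hα, hγ]
    ring
  rw [e1]
  have e2 : (∫ θ in Ioo 0 Real.pi, f (Φ θ) * (K + θ)) - ∫ s in Ioo 0 Real.pi, f s * ω' s =
      ((∫ θ in Ioo 0 Real.pi, f (Φ θ) * (K + θ)) - ∫ s in Ioo 0 Real.pi, f s * ω s) +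
      ((∫ s in Ioo 0 Real.pi, f s * ω s) - ∫ s in Ioo 0 Real.pi, f s * ω' s) := by ring
  rw [e2]
  refine (abs_add_le _ _).trans ((add_le_add s2 s4).trans (le_of_eq ?_))
  rw [hq, inv_pow, div_eq_mul_inv]
  ring

/-- Riemann sums of monotone functions. -/
theorem riemann {g : ℝ → ℝ} {M : ℝ} (hg : MonotoneOn g (Icc 0 Real.pi))
    (h0 : ∀ x ∈ Icc 0 Real.pi, 0 ≤ g x) (h1 : ∀ x ∈ Icc 0 Real.pi, g x ≤ M) (m : ℕ) :
    |(∑ i ∈ Finset.range m, g ((i + 1) * (Real.pi / (m + 1)))) * (Real.pi / (m + 1)) -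
      ∫ θ in Ioo 0 Real.pi, g θ| ≤ M * (Real.pi / (m + 1)) := by
  have hp := Real.pi_pos
  have hm : (0 : ℝ) < m + 1 := by positivity
  obtain ⟨Δ, hΔ⟩ : ∃ Δ, Δ = Real.pi / (m + 1) := ⟨_, rfl⟩
  have hΔ0 : 0 < Δ := by rw [hΔ]; positivity
  have hΔm : (m + 1) * Δ = Real.pi := by rw [hΔ]; field_simp
  have hmem : ∀ x ∈ Icc (0 : ℝ) (0 + ((m + 1 : ℕ) : ℝ)), x * Δ ∈ Icc 0 Real.pi := by
    intro x hx
    rw [zero_add] at hx
    push_cast at hx
    refine ⟨mul_nonneg hx.1 hΔ0.le, ?_⟩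
    rw [← hΔm]
    exact mul_le_mul_of_nonneg_right hx.2 hΔ0.le
  have hF : MonotoneOn (fun x => g (x * Δ)) (Icc (0 : ℝ) (0 + ((m + 1 : ℕ) : ℝ))) := by
    intro x hx y hy hxy
    exact hg (hmem x hx) (hmem y hy) (mul_le_mul_of_nonneg_right hxy hΔ0.le)
  have k1 := hF.sum_le_integral
  have k2 := hF.integral_le_sum
  have k3 : ∫ x in (0 : ℝ)..0 + ((m + 1 : ℕ) : ℝ), g (x * Δ) =
      Δ⁻¹ * ∫ θ in Ioo 0 Real.pi, g θ := by
    rw [intervalIntegral.integral_comp_mul_right _ hΔ0.ne', zero_mul, zero_add]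
    push_cast
    rw [hΔm, smul_eq_mul, intervalIntegral.integral_of_le hp.le, integral_Ioc_eq_integral_Ioo]
  rw [k3] at k1 k2
  simp only [zero_add] at k1 k2
  rw [Finset.sum_range_succ'] at k1
  rw [Finset.sum_range_succ] at k2
  obtain ⟨S, hS⟩ : ∃ S, S = ∑ i ∈ Finset.range m, g ((i + 1) * (Real.pi / (m + 1))) := ⟨_, rfl⟩
  obtain ⟨J, hJ⟩ : ∃ J, J = ∫ θ in Ioo 0 Real.pi, g θ := ⟨_, rfl⟩
  have e1 : ∑ k ∈ Finset.range m, g (((k + 1 : ℕ) : ℝ) * Δ) = S := by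
    rw [hS, hΔ]
    refine Finset.sum_congr rfl fun i _ => ?_
    push_cast
    rfl
  rw [e1, ← hJ] at k1
  rw [e1, ← hJ] at k2
  simp only [Nat.cast_zero, zero_mul] at k1
  have h2 : 0 ≤ g 0 := h0 0 ⟨le_rfl, hp.le⟩
  have h3 : g (((m + 1 : ℕ) : ℝ) * Δ) ≤ M := by
    push_cast
    rw [hΔm]
    exact h1 _ ⟨hp.le, le_rfl⟩
  have hM : 0 ≤ M := (h0 0 ⟨le_rfl, hp.le⟩).trans (h1 0 ⟨le_rfl, hp.le⟩)
  rw [← hS, ← hJ, ← hΔ]
  have k4 : S * Δ ≤ J := by
    have : S ≤ Δ⁻¹ * J := by linarith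
    calc S * Δ ≤ Δ⁻¹ * J * Δ := mul_le_mul_of_nonneg_right this hΔ0.le
      _ = J := by field_simp
  have k5 : J ≤ S * Δ + M * Δ := by
    have : Δ⁻¹ * J ≤ S + M := by linarith
    calc J = Δ⁻¹ * J * Δ := by field_simp
      _ ≤ (S + M) * Δ := mul_le_mul_of_nonneg_right this hΔ0.le
      _ = _ := by ring
  rw [abs_le]
  constructor
  · linarith
  · have : 0 ≤ M * Δ := by positivity
    linarith

/-- The pointwise observable. -/
noncomputable def ptL (f : ℝ → ℝ) (θ : ℝ) (W : ℝ → ℝ) (b t : ℝ) : ℝ :=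
  f ((flow W t (pz b θ) - W t).arg)

/-- The number of points. -/
noncomputable def nb (b : ℝ) : ℕ := ⌈b ^ 3⌉₊

/-- The points. -/
noncomputable def th (b : ℝ) (i : ℕ) : ℝ := (i + 1) * (Real.pi / (nb b + 1))

theorem th_mem (b : ℝ) {i : ℕ} (hi : i < nb b) : th b i ∈ Ioo 0 Real.pi := by
  have hp := Real.pi_pos
  have h1 : (0 : ℝ) < nb b + 1 := by positivity
  have h2 : (i : ℝ) + 1 < nb b + 1 := by exact_mod_cast Nat.succ_lt_succ hi
  refine ⟨by unfold th; positivity, ?_⟩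
  have h3 : Real.pi = (nb b + 1) * (Real.pi / (nb b + 1)) := by field_simp
  rw [th]
  conv_rhs => rw [h3]
  exact mul_lt_mul_of_pos_right h2 (by positivity)

/-- The interior observable as a finite sum. -/
noncomputable def obsR (f : ℝ → ℝ) (K : ℝ) (W : ℝ → ℝ) (b t : ℝ) : ℝ :=
  ∑ i ∈ Finset.range (nb b), (K + th b i) * (Real.pi / (nb b + 1)) * ptL f (th b i) W b t

theorem obsR_expansion {f : ℝ → ℝ} (hf : Monotone f) (h0 : ∀ x, 0 ≤ f x) (h1 : ∀ x, f x ≤ 1)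
    {K : ℝ} (hK : 0 ≤ K) {T R : ℝ} (hT : 0 ≤ T) (hR : 0 ≤ R) : ∃ C b₀ : ℝ, 0 ≤ C ∧ 0 < b₀ ∧
    ∀ (W : ℝ → ℝ) (b t : ℝ), 0 ≤ t → t ≤ T → ContinuousOn W (Icc 0 t) →
      (∀ s ∈ Icc 0 t, |W s| ≤ R) → b₀ ≤ b →
      |obsR f K W b t - (j0 f K - j1 f K * W t / b +
        (j3 f * W t ^ 2 + 2 * j2 f K * t) / b ^ 2)| ≤ C / b ^ 3 := by
  obtain ⟨C1, b1, hC1, hb1, harg⟩ := arg_flow hT hR
  obtain ⟨C, b₀, hC, hb₀, hgen⟩ := gen_expansion hf h0 h1 hK hT hR hC1
  have hp := Real.pi_pos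
  obtain ⟨A, hA⟩ : ∃ A, A = R + R ^ 2 + 4 * T := ⟨_, rfl⟩
  have hA0 : 0 ≤ A := by rw [hA]; positivity
  refine ⟨C + (K + Real.pi) * Real.pi, 1 + b1 + b₀ + 2 * A, by positivity, by positivity, ?_⟩
  intro W b t ht htT hW hWR hb
  have hb1' : 1 ≤ b := by linarith
  have hb0 : 0 < b := by linarith
  have hb3 : 0 < b ^ 3 := by positivity
  have hWt := hWR t ⟨ht, le_rfl⟩
  obtain ⟨ε, hε⟩ : ∃ ε, ε = C1 / b ^ 3 := ⟨_, rfl⟩
  have hε0 : 0 ≤ ε := by rw [hε]; positivity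
  -- `mainU` is increasing
  have hmono : Monotone (mainU (W t) t b) := by
    have h2 : mainU (W t) t b = vv (-(W t / b)) (((W t) ^ 2 / 2 - 2 * t) / b ^ 2) := by
      funext s
      unfold mainU vv
      ring
    rw [h2]
    refine (strictMono_vv ?_).monotone
    rw [abs_neg, abs_div, abs_div, abs_of_pos hb0, abs_of_pos (pow_pos hb0 2)]
    have h3 : |W t| / b ≤ R / b := div_le_div_of_nonneg_right hWt hb0.le
    have h4 : |(W t) ^ 2 / 2 - 2 * t| ≤ R ^ 2 / 2 + 2 * T := by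
      have h5 : (W t) ^ 2 ≤ R ^ 2 := by
        rw [← sq_abs]
        exact pow_le_pow_left₀ (abs_nonneg _) hWt 2
      have := sq_nonneg (W t)
      rw [abs_le]
      constructor <;> linarith
    have h5 : |(W t) ^ 2 / 2 - 2 * t| / b ^ 2 ≤ (R ^ 2 / 2 + 2 * T) / b := by
      refine div_le_div₀ (by positivity) h4 hb0 ?_
      nlinarith
    have h6 : R / b + 2 * ((R ^ 2 / 2 + 2 * T) / b) = A / b := by rw [hA]; ring
    have h7 : A / b < 1 := by
      rw [div_lt_one hb0]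
      linarith
    linarith
  -- the sandwich
  have hΔ : Real.pi / (nb b + 1) ≤ Real.pi / b ^ 3 := by
    apply div_le_div_of_nonneg_left hp.le hb3
    have : b ^ 3 ≤ nb b := Nat.le_ceil _
    linarith
  have hΔ0 : 0 < Real.pi / (nb b + 1) := by positivity
  have key : ∀ e : ℝ, |e| ≤ ε →
      |(∑ i ∈ Finset.range (nb b), (f (mainU (W t) t b (th b i) + e) * (K + th b i))) *
        (Real.pi / (nb b + 1)) - (j0 f K - j1 f K * W t / b +
        (j3 f * W t ^ 2 + 2 * j2 f K * t) / b ^ 2)| ≤ (C + (K + Real.pi) * Real.pi) / b ^ 3 := by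
    intro e he
    have g1 := hgen (W t) b t (fun θ => mainU (W t) t b θ + e) ht htT hWt (by linarith)
      (by
        have : Continuous fun θ => mainU (W t) t b θ + e := by
          unfold mainU
          fun_prop
        exact this.continuousOn)
      (fun θ _ => by
        rw [add_sub_cancel_left, ← hε]
        exact he)
    have g2 := riemann (g := fun θ => f (mainU (W t) t b θ + e) * (K + θ)) (M := K + Real.pi)
      (fun x hx y hy hxy => mul_le_mul (hf (by linarith [hmono hxy])) (by linarith)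
        (by linarith [hx.1]) (h0 _))
      (fun x hx => mul_nonneg (h0 _) (by linarith [hx.1]))
      (fun x hx => by
        calc f (mainU (W t) t b x + e) * (K + x) ≤ 1 * (K + Real.pi) :=
              mul_le_mul (h1 _) (by linarith [hx.2]) (by linarith [hx.1]) zero_le_one
          _ = _ := one_mul _) (nb b)
    have g3 : (K + Real.pi) * (Real.pi / (nb b + 1)) ≤ (K + Real.pi) * Real.pi / b ^ 3 := by
      rw [mul_div_assoc]
      exact mul_le_mul_of_nonneg_left hΔ (by positivity)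
    have g4 := abs_add_le ((∑ i ∈ Finset.range (nb b), (f (mainU (W t) t b (th b i) + e) *
      (K + th b i))) * (Real.pi / (nb b + 1)) -
        ∫ θ in Ioo 0 Real.pi, f (mainU (W t) t b θ + e) * (K + θ))
      ((∫ θ in Ioo 0 Real.pi, f (mainU (W t) t b θ + e) * (K + θ)) -
        (j0 f K - j1 f K * W t / b + (j3 f * W t ^ 2 + 2 * j2 f K * t) / b ^ 2))
    rw [sub_add_sub_cancel] at g4
    have g5 : (C + (K + Real.pi) * Real.pi) / b ^ 3 = C / b ^ 3 +
        (K + Real.pi) * Real.pi / b ^ 3 := by ring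
    rw [g5]
    have g6 : |(∑ i ∈ Finset.range (nb b), (f (mainU (W t) t b (th b i) + e) *
      (K + th b i))) * (Real.pi / (nb b + 1)) -
        ∫ θ in Ioo 0 Real.pi, f (mainU (W t) t b θ + e) * (K + θ)| ≤
        (K + Real.pi) * (Real.pi / (nb b + 1)) := g2
    linarith
  have hobs : obsR f K W b t = (∑ i ∈ Finset.range (nb b), (ptL f (th b i) W b t *
      (K + th b i))) * (Real.pi / (nb b + 1)) := by
    rw [obsR, Finset.sum_mul]
    exact Finset.sum_congr rfl fun i _ => by ring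
  have hup : ∀ i ∈ Finset.range (nb b), f (mainU (W t) t b (th b i) + -ε) * (K + th b i) ≤
      ptL f (th b i) W b t * (K + th b i) ∧ ptL f (th b i) W b t * (K + th b i) ≤
      f (mainU (W t) t b (th b i) + ε) * (K + th b i) := by
    intro i hi
    have hθ := th_mem b (Finset.mem_range.1 hi)
    have h2 := (harg W b t ht htT hW hWR (by linarith) _ hθ.1 hθ.2).2.2
    rw [← hε] at h2
    obtain ⟨h3, h4⟩ := abs_le.1 h2
    have h5 : 0 ≤ K + th b i := by linarith [hθ.1]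
    exact ⟨mul_le_mul_of_nonneg_right (hf (by linarith)) h5,
      mul_le_mul_of_nonneg_right (hf (by linarith)) h5⟩
  have u1 := mul_le_mul_of_nonneg_right (Finset.sum_le_sum fun i hi => (hup i hi).1) hΔ0.le
  have u2 := mul_le_mul_of_nonneg_right (Finset.sum_le_sum fun i hi => (hup i hi).2) hΔ0.le
  have k1 := abs_le.1 (key (-ε) (by rw [abs_neg, abs_of_nonneg hε0]))
  have k2 := abs_le.1 (key ε (by rw [abs_of_nonneg hε0]))
  rw [hobs, abs_le]
  constructor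
  · linarith [k1.1]
  · linarith [k2.2]

/-- **`Expn` for the finite interior observable.** -/
theorem expn_obsR {f : ℝ → ℝ} (hf : Monotone f) (h0 : ∀ x, 0 ≤ f x) (h1 : ∀ x, f x ≤ 1)
    (hn : ∃ x ∈ Ioo 0 Real.pi, ∃ y ∈ Ioo 0 Real.pi, f x ≠ f y) :
    ∃ K v c₀ c₁ c₂ : ℝ, 0 ≤ K ∧ Expn (obsR f K) v c₀ c₁ c₂ := by
  obtain ⟨K, hK, hK1⟩ := exists_K hf hn
  have h3 : j3 f ≠ 0 := (j3_neg hf hn).ne
  refine ⟨K, -2 * j2 f K / j3 f, j0 f K, -j1 f K, j3 f, hK, ?_, h3, ?_⟩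
  · exact neg_ne_zero.2 hK1
  · intro T R hT hR
    obtain ⟨C, b₀, hC, hb₀, h⟩ := obsR_expansion hf h0 h1 hK hT hR
    refine ⟨C, b₀, hC, hb₀, fun W b t ht htT hW hWR hb => ?_⟩
    have h4 := h W b t ht htT hW hWR hb
    have e : j0 f K + -j1 f K * W t / b + j3 f * (W t ^ 2 - -2 * j2 f K / j3 f * t) / b ^ 2 =
        j0 f K - j1 f K * W t / b + (j3 f * W t ^ 2 + 2 * j2 f K * t) / b ^ 2 := by
      have : j3 f * (W t ^ 2 - -2 * j2 f K / j3 f * t) = j3 f * W t ^ 2 + 2 * j2 f K * t := by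
        field_simp
        ring
      rw [this]
      ring
    rw [e]
    exact h4

end Vale.Agent.P167.H212
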