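import Vale.Agent.P167.QE.FinL

/-!
# P167, Stage II (S2), file 6: two observables of the same explorations have the same variance `v`
-/

set_option linter.unusedVariables false

namespace Vale.Agent.P167.H212

open MeasureTheory ProbabilityTheory Filter Topology Set
open Vale.Agent.P153.M1
open Vale.Agent.P167.H411 Vale.Agent.P167.QE
open scoped NNReal ENNReal

section

variable {A B : Type*} {X : ℕ → Expl A B} {w : ℕ → A → ℝ}

/-- The variance of `√v B_1`. -/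
theorem var_drv [MeasurableSpace C(ℝ≥0, ℝ)] [BorelSpace C(ℝ≥0, ℝ)] {v : ℝ} (hv : 0 < v)
    {lam : Measure C(ℝ≥0, ℝ)}
    (h : IsBrownianReal (fun (t : ℝ≥0) (w : C(ℝ≥0, ℝ)) => w t / √v) lam) :
    variance (fun w : C(ℝ≥0, ℝ) => w 1) lam = v := by
  have h1 := (h.hasLaw_eval 1).variance_eq
  rw [variance_id_gaussianReal] at h1
  have h2 : (fun w : C(ℝ≥0, ℝ) => w 1) = fun w => √v * (w 1 / √v) := by
    funext w
    have : √v ≠ 0 := (Real.sqrt_pos.2 hv).ne'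
    field_simp
  rw [h2, variance_const_mul]
  have h3 : variance (fun w : C(ℝ≥0, ℝ) => w 1 / √v) lam = 1 := by
    simpa using h1
  rw [h3, mul_one, Real.sq_sqrt hv.le]

/-- Two observables with positive variances. -/
theorem v_eq_pos {O O' : (ℝ → ℝ) → ℝ → ℝ → ℝ} {v v' c₀ c₁ c₂ c₀' c₁' c₂' : ℝ} (hv : 0 < v)
    (hv' : 0 < v') (hE : Expn O v c₀ c₁ c₂) (hE' : Expn O' v' c₀' c₁' c₂') (hX : AsymB X)
    (hw : ∀ n, ∀ a ∈ (X n).C, 0 < w n a) (hC : CloseL X w O) (hC' : CloseL X w O') : v = v' := by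
  let _ : MeasurableSpace C(ℝ≥0, ℝ) := borel _
  have _ : BorelSpace C(ℝ≥0, ℝ) := ⟨rfl⟩
  obtain ⟨lam, hl, hB, hlim⟩ := drv_weakL hv hE hX hw hC
  obtain ⟨lam', hl', hB', hlim'⟩ := drv_weakL hv' hE' hX hw hC'
  have he : lam = lam' := by
    refine ext_of_forall_integral_eq_of_IsFiniteMeasure fun f => ?_
    exact tendsto_nhds_unique (hlim f f.continuous ⟨‖f‖, fun y => f.norm_coe_le_norm y⟩)
      (hlim' f f.continuous ⟨‖f‖, fun y => f.norm_coe_le_norm y⟩)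
  subst he
  rw [← var_drv hv hB, ← var_drv hv' hB']

/-- A linear combination of observables. -/
def cmb (O O' : (ℝ → ℝ) → ℝ → ℝ → ℝ) (r : ℝ) (W : ℝ → ℝ) (b t : ℝ) : ℝ := O W b t + r * O' W b t

theorem cexW_cmb (hf : ∀ n, (X n).C.Finite) (n : ℕ) (φ φ' : A → ℝ) (r : ℝ) (h : A) (k : ℕ) :
    cexW (X n) (w n) (fun a => φ a + r * φ' a) h k =
      cexW (X n) (w n) φ h k + r * cexW (X n) (w n) φ' h k := by
  unfold cexW
  rw [exW_add (cyl_fin (hf n) h k), exW_smul (cyl_fin (hf n) h k)]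

theorem closeL_cmb {O O' : (ℝ → ℝ) → ℝ → ℝ → ℝ} (hX : AsymB X)
    (hw : ∀ n, ∀ a ∈ (X n).C, 0 < w n a) (hC : CloseL X w O) (hC' : CloseL X w O') (r : ℝ) :
    CloseL X w (cmb O O' r) := by
  intro T R hT hR
  obtain ⟨b₁, h1⟩ := hC T R hT hR
  obtain ⟨b₂, h2⟩ := hC' T R hT hR
  refine ⟨max b₁ b₂, fun b hb ε hε => ?_⟩
  obtain ⟨φ, hφ⟩ := h1 b ((le_max_left _ _).trans hb) (ε / 2) (by positivity)
  have hr : 0 < 2 * (|r| + 1) := by positivity
  obtain ⟨φ', hφ'⟩ := h2 b ((le_max_right _ _).trans hb) (ε / (2 * (|r| + 1))) (by positivity)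
  refine ⟨fun n a => φ n a + r * φ' n a, ?_⟩
  filter_upwards [hφ, hφ'] with n k1 k2 κ hκ
  have hwf := hX.wf n
  have a1 := k1 κ hκ
  have a2 := k2 κ hκ
  refine (exW_mono hwf.fin (hw n) (g := fun h =>
    |cexW (X n) (w n) (φ n) h (κ h) - O ((X n).W h) b ((X n).c h (κ h))| +
      |r| * |cexW (X n) (w n) (φ' n) h (κ h) - O' ((X n).W h) b ((X n).c h (κ h))|)
    fun h hh => ?_).trans ?_
  · rw [cexW_cmb (fun n => (hX.wf n).fin), cmb, ← abs_mul]
    have e : cexW (X n) (w n) (φ n) h (κ h) + r * cexW (X n) (w n) (φ' n) h (κ h) -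
        (O ((X n).W h) b ((X n).c h (κ h)) + r * O' ((X n).W h) b ((X n).c h (κ h))) =
        (cexW (X n) (w n) (φ n) h (κ h) - O ((X n).W h) b ((X n).c h (κ h))) +
        r * (cexW (X n) (w n) (φ' n) h (κ h) - O' ((X n).W h) b ((X n).c h (κ h))) := by ring
    rw [e]
    exact abs_add_le _ _
  · rw [exW_add hwf.fin, exW_smul hwf.fin]
    have h3 : |r| * ExW (X n).C (w n) (fun h => |cexW (X n) (w n) (φ' n) h (κ h) -
        O' ((X n).W h) b ((X n).c h (κ h))|) ≤ |r| * (ε / (2 * (|r| + 1))) :=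
      mul_le_mul_of_nonneg_left a2 (abs_nonneg r)
    have h4 : |r| * (ε / (2 * (|r| + 1))) ≤ ε / 2 := by
      rw [mul_div_assoc', div_le_div_iff₀ hr (by norm_num)]
      nlinarith [abs_nonneg r]
    linarith

theorem expn_cmb {O O' : (ℝ → ℝ) → ℝ → ℝ → ℝ} {v v' c₀ c₁ c₂ c₀' c₁' c₂' : ℝ}
    (hE : Expn O v c₀ c₁ c₂) (hE' : Expn O' v' c₀' c₁' c₂') {r : ℝ} (h1 : c₁ + r * c₁' ≠ 0)
    (h2 : c₂ + r * c₂' ≠ 0) :
    Expn (cmb O O' r) ((c₂ * v + r * c₂' * v') / (c₂ + r * c₂')) (c₀ + r * c₀') (c₁ + r * c₁')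
      (c₂ + r * c₂') where
  h1 := h1
  h2 := h2
  exp := by
    intro T R hT hR
    obtain ⟨C, b₀, hC, hb, h⟩ := hE.exp T R hT hR
    obtain ⟨C', b₀', hC', hb', h'⟩ := hE'.exp T R hT hR
    refine ⟨C + |r| * C', b₀ + b₀', by positivity, by positivity, ?_⟩
    intro W b t ht htT hW hWR hbb
    have a1 := h W b t ht htT hW hWR (by linarith)
    have a2 := h' W b t ht htT hW hWR (by linarith)
    have e : cmb O O' r W b t - (c₀ + r * c₀' + (c₁ + r * c₁') * W t / b +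
        (c₂ + r * c₂') * (W t ^ 2 - (c₂ * v + r * c₂' * v') / (c₂ + r * c₂') * t) / b ^ 2) =
        (O W b t - (c₀ + c₁ * W t / b + c₂ * (W t ^ 2 - v * t) / b ^ 2)) +
        r * (O' W b t - (c₀' + c₁' * W t / b + c₂' * (W t ^ 2 - v' * t) / b ^ 2)) := by
      have e1 : (c₂ + r * c₂') * (W t ^ 2 - (c₂ * v + r * c₂' * v') / (c₂ + r * c₂') * t) =
          (c₂ + r * c₂') * W t ^ 2 - (c₂ * v + r * c₂' * v') * t := by
        field_simp
      rw [e1]
      unfold cmb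
      ring
    rw [e]
    refine (abs_add_le _ _).trans ?_
    rw [abs_mul]
    have a3 := mul_le_mul_of_nonneg_left a2 (abs_nonneg r)
    calc _ ≤ C / b ^ 3 + |r| * (C' / b ^ 3) := add_le_add a1 a3
      _ = (C + |r| * C') / b ^ 3 := by ring

/-- **Two observables of the same explorations have the same variance.** -/
theorem v_eq {O O' : (ℝ → ℝ) → ℝ → ℝ → ℝ} {v v' c₀ c₁ c₂ c₀' c₁' c₂' : ℝ}
    (hv' : 0 < v') (hE : Expn O v c₀ c₁ c₂) (hE' : Expn O' v' c₀' c₁' c₂') (hX : AsymB X)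
    (hw : ∀ n, ∀ a ∈ (X n).C, 0 < w n a) (hC : CloseL X w O) (hC' : CloseL X w O') : v = v' := by
  -- a large multiple of `O'`
  have t1 : Tendsto (fun r : ℝ => r⁻¹) atTop (𝓝 0) := tendsto_inv_atTop_zero
  have l1 : Tendsto (fun r : ℝ => c₁ * r⁻¹ + c₁') atTop (𝓝 c₁') := by
    have := (t1.const_mul c₁).add_const c₁'
    simpa using this
  have l2 : Tendsto (fun r : ℝ => c₂ * r⁻¹ + c₂') atTop (𝓝 c₂') := by
    have := (t1.const_mul c₂).add_const c₂'
    simpa using this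
  have l3 : Tendsto (fun r : ℝ => (c₂ * v * r⁻¹ + c₂' * v') / (c₂ * r⁻¹ + c₂')) atTop (𝓝 v') := by
    have h3 : Tendsto (fun r : ℝ => c₂ * v * r⁻¹ + c₂' * v') atTop (𝓝 (c₂' * v')) := by
      have := (t1.const_mul (c₂ * v)).add_const (c₂' * v')
      simpa using this
    have := h3.div l2 hE'.h2
    rwa [mul_div_cancel_left₀ _ hE'.h2] at this
  have e1 := l1.eventually_ne hE'.h1
  have e2 := l2.eventually_ne hE'.h2
  have e3 := l3.eventually (lt_mem_nhds hv')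
  obtain ⟨r, hr1, hr2, hr3, hr4⟩ := (e1.and (e2.and (e3.and (eventually_gt_atTop 0)))).exists
  have hrne : r ≠ 0 := hr4.ne'
  have f1 : c₁ + r * c₁' = r * (c₁ * r⁻¹ + c₁') := by field_simp
  have f2 : c₂ + r * c₂' = r * (c₂ * r⁻¹ + c₂') := by field_simp
  have g1 : c₁ + r * c₁' ≠ 0 := by rw [f1]; exact mul_ne_zero hrne hr1
  have g2 : c₂ + r * c₂' ≠ 0 := by rw [f2]; exact mul_ne_zero hrne hr2
  have g3 : 0 < (c₂ * v + r * c₂' * v') / (c₂ + r * c₂') := by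
    have : (c₂ * v + r * c₂' * v') / (c₂ + r * c₂') =
        (c₂ * v * r⁻¹ + c₂' * v') / (c₂ * r⁻¹ + c₂') := by
      rw [f2, ← mul_div_mul_left (c₂ * v * r⁻¹ + c₂' * v') _ hrne]
      congr 1
      field_simp
    rw [this]
    exact hr3
  have h := v_eq_pos g3 hv' (expn_cmb hE hE' g1 g2) hE' hX hw (closeL_cmb hX hw hC hC' r) hC'
  rw [div_eq_iff g2] at h
  have h5 : c₂ * v = c₂ * v' := by linarith
  exact mul_left_cancel₀ hE.h2 h5

end

end Vale.Agent.P167.H212
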