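import Vale.Agent.P167.H212.ObsR
import Vale.Agent.P167.H212.VEq
import Vale.Agent.P167.QE.MainL

/-!
# P167, Stage II (S2), file 8: the curve theorem from an interior observable

`I_ptL wt f`: the conditional probability of an event `L_z` (for instance: the point `z` lies on the
left of the interface) is close to `f (arg (g_t(z) - W_t))` at stopping indices, for a monotone
nonconstant function `f`.  `curveLimit_two`: this input for all domains, and ONE sequence for which the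
limit is known to be `SLE_κ`, give the convergence to `SLE_κ` for all domains.
-/

set_option autoImplicit false
set_option linter.unusedVariables false

namespace Vale.Agent.P167.H212

open MeasureTheory ProbabilityTheory Filter Topology Set
open Vale.Agent.P153.M1 (Expl sysX W_cont)
open Vale.Agent.P153.R2
open Vale.Agent.P153.R2.DET (Uni HC)
open Vale.Agent.P153.R2.R1 (IsU)
open Vale.Agent.P153.R2.C1
open Vale.Agent.P153.R2.Final (dom circ toC IsUniformizer)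
open Vale.Agent.P167.QE
open Vale.Agent.P167.SLE (SeqHyp Cf bq)
open Vale.Agent.P167.H411 (Expn Set6 exn DC DCs Qc xc_Qc good_ev DCs_bdd fjr_mono
  I_rado6 AsymB cyl mem_cyl cyl_sub)
open Vale.Agent.P167.E6 Vale.Agent.P167.E2
open Vale.Agent.P167.H947 (surv flow)

section

variable {A B : Type*}

/-- **Pointwise closeness in probability**: for every angle `θ`, all large `b` and all `ε > 0` there
are functions `φ n` of the outcome with values in `[0, 1]` (indicators of events) whose conditional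
expectations at stopping indices before the exit from `[0, T] × [-R, R]` are within `ε` of
`f (arg (g_t(b e^{i θ}) - W_t))` with probability at least `1 - ε`. -/
def ClosePt (X : ℕ → Expl A B) (w : ℕ → A → ℝ) (f : ℝ → ℝ) : Prop :=
  ∀ T R : ℝ, 0 ≤ T → 0 < R → ∃ b₁ : ℝ, ∀ b : ℝ, b₁ ≤ b → ∀ θ ∈ Ioo 0 Real.pi, ∀ ε : ℝ, 0 < ε →
    ∃ φ : ℕ → A → ℝ, ∀ᶠ n in atTop, (∀ h ∈ (X n).C, 0 ≤ φ n h ∧ φ n h ≤ 1) ∧
      ∀ κ : A → ℕ, BefIx (X n) T R κ →
      ExW (X n).C (w n) ({h | ε < |cexW (X n) (w n) (φ n) h (κ h) -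
        f ((flow ((X n).W h) ((X n).c h (κ h)) (pz b θ) -
          ((X n).W h ((X n).c h (κ h)) : ℝ)).arg)|}.indicator 1) ≤ ε

variable {X : ℕ → Expl A B} {w : ℕ → A → ℝ}

theorem cexW_bd (hX : AsymB X) (hw : ∀ n, ∀ a ∈ (X n).C, 0 < w n a) (n : ℕ) {φ : A → ℝ}
    (hφ : ∀ h ∈ (X n).C, 0 ≤ φ h ∧ φ h ≤ 1) {h : A} (hh : h ∈ (X n).C) (k : ℕ) :
    |cexW (X n) (w n) φ h k| ≤ 1 := by
  have hwf := hX.wf n
  refine abs_exW_le (cyl_fin hwf.fin h k) ⟨h, mem_cyl hh k⟩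
    (fun a ha => hw n a (cyl_sub _ _ _ ha)) fun a ha => ?_
  obtain ⟨h1, h2⟩ := hφ a (cyl_sub _ _ _ ha)
  rw [abs_of_nonneg h1]
  exact h2

/-- From pointwise closeness in probability to closeness in the mean. -/
theorem closePt_L1 (hX : AsymB X) (hw : ∀ n, ∀ a ∈ (X n).C, 0 < w n a) {f : ℝ → ℝ}
    (h0 : ∀ x, 0 ≤ f x) (h1 : ∀ x, f x ≤ 1) (hC : ClosePt X w f) {T R : ℝ} (hT : 0 ≤ T)
    (hR : 0 < R) : ∃ b₁ : ℝ, ∀ b : ℝ, b₁ ≤ b → ∀ θ ∈ Ioo 0 Real.pi, ∀ ε : ℝ, 0 < ε →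
    ∃ φ : ℕ → A → ℝ, ∀ᶠ n in atTop, ∀ κ : A → ℕ, BefIx (X n) T R κ →
      ExW (X n).C (w n) (fun h => |cexW (X n) (w n) (φ n) h (κ h) -
        ptL f θ ((X n).W h) b ((X n).c h (κ h))|) ≤ ε := by
  classical
  obtain ⟨b₁, hb⟩ := hC T R hT hR
  refine ⟨b₁, fun b hb₁ θ hθ ε hε => ?_⟩
  obtain ⟨φ, hφ⟩ := hb b hb₁ θ hθ (ε / 3) (by positivity)
  refine ⟨φ, ?_⟩
  filter_upwards [hφ] with n hn κ hκ
  obtain ⟨a0, a1⟩ := hn
  have a2 := a1 κ hκ
  have hwf := hX.wf n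
  set g : A → ℝ := fun h => |cexW (X n) (w n) (φ n) h (κ h) -
    ptL f θ ((X n).W h) b ((X n).c h (κ h))| with hg
  have key : ∀ h ∈ (X n).C, g h ≤ ε / 3 + 2 * ({h | ε / 3 < g h}.indicator 1 h : ℝ) := by
    intro h hh
    by_cases h3 : ε / 3 < g h
    · rw [Set.indicator_of_mem (show h ∈ {h | ε / 3 < g h} from h3), Pi.one_apply, mul_one]
      have h4 : g h ≤ 2 := by
        have h5 := abs_sub (cexW (X n) (w n) (φ n) h (κ h))
          (ptL f θ ((X n).W h) b ((X n).c h (κ h)))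
        have h6 := cexW_bd hX hw n a0 hh (κ h)
        have h7 : |ptL f θ ((X n).W h) b ((X n).c h (κ h))| ≤ 1 := by
          rw [ptL, abs_of_nonneg (h0 _)]
          exact h1 _
        simp only [hg]
        linarith
      linarith
    · rw [Set.indicator_of_notMem (show h ∉ {h | ε / 3 < g h} from h3), mul_zero, add_zero]
      push Not at h3
      exact h3
  have e1 := exW_mono hwf.fin (hw n) key
  rw [exW_add hwf.fin (w n) (fun _ => ε / 3)
    (fun h => 2 * ({h | ε / 3 < g h}.indicator 1 h : ℝ)), exW_const hwf.fin hwf.ne (hw n),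
    exW_smul hwf.fin] at e1
  have e2 : ExW (X n).C (w n) (fun h => ({h | ε / 3 < g h}.indicator 1 h : ℝ)) ≤ ε / 3 := a2
  linarith

theorem exW_sum {C : Set A} (hf : C.Finite) (w : A → ℝ) {ι : Type*} (s : Finset ι)
    (F : ι → A → ℝ) : ExW C w (fun h => ∑ i ∈ s, F i h) = ∑ i ∈ s, ExW C w (F i) := by
  classical
  induction s using Finset.induction_on with
  | empty =>
    simp only [Finset.sum_empty]
    rw [exW_eq_sum hf]
    simp
  | insert a s ha ih =>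
    simp only [Finset.sum_insert ha]
    rw [exW_add hf, ih]

/-- **Closeness in `L¹` for the finite sum.** -/
theorem closeL_obsR (hX : AsymB X) (hw : ∀ n, ∀ a ∈ (X n).C, 0 < w n a) {f : ℝ → ℝ}
    (h0 : ∀ x, 0 ≤ f x) (h1 : ∀ x, f x ≤ 1) (hC : ClosePt X w f) {K : ℝ} (hK : 0 ≤ K) :
    CloseL X w (obsR f K) := by
  intro T R hT hR
  obtain ⟨b₁, hb⟩ := closePt_L1 hX hw h0 h1 hC hT hR
  refine ⟨b₁, fun b hb₁ ε hε => ?_⟩
  have hp := Real.pi_pos
  obtain ⟨M, hM⟩ : ∃ M, M = (K + Real.pi) * Real.pi + 1 := ⟨_, rfl⟩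
  have hM0 : 0 < M := by rw [hM]; positivity
  have hch : ∀ i : ℕ, ∃ φ : ℕ → A → ℝ, i < nb b → ∀ᶠ n in atTop, ∀ κ : A → ℕ,
      BefIx (X n) T R κ → ExW (X n).C (w n) (fun h => |cexW (X n) (w n) (φ n) h (κ h) -
        ptL f (th b i) ((X n).W h) b ((X n).c h (κ h))|) ≤ ε / M := by
    intro i
    by_cases hi : i < nb b
    · obtain ⟨φ, hφ⟩ := hb b hb₁ (th b i) (th_mem b hi) (ε / M) (by positivity)
      exact ⟨φ, fun _ => hφ⟩
    · exact ⟨fun _ _ => 0, fun h => absurd h hi⟩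
  choose φ hφ using hch
  refine ⟨fun n a => ∑ i ∈ Finset.range (nb b), (K + th b i) * (Real.pi / (nb b + 1)) * φ i n a, ?_⟩
  have hall : ∀ᶠ n in atTop, ∀ i ∈ Finset.range (nb b), ∀ κ : A → ℕ,
      BefIx (X n) T R κ → ExW (X n).C (w n) (fun h => |cexW (X n) (w n) (φ i n) h (κ h) -
        ptL f (th b i) ((X n).W h) b ((X n).c h (κ h))|) ≤ ε / M :=
    (Finset.eventually_all _).2 fun i hi => hφ i (Finset.mem_range.1 hi)
  filter_upwards [hall] with n hn κ hκ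
  have hwf := hX.wf n
  have hc0 : ∀ i ∈ Finset.range (nb b), 0 ≤ (K + th b i) * (Real.pi / (nb b + 1)) := by
    intro i hi
    have := (th_mem b (Finset.mem_range.1 hi)).1
    positivity
  have hsum : ∑ i ∈ Finset.range (nb b), (K + th b i) * (Real.pi / (nb b + 1)) ≤ M := by
    have h2 : ∀ i ∈ Finset.range (nb b), (K + th b i) * (Real.pi / (nb b + 1)) ≤
        (K + Real.pi) * (Real.pi / (nb b + 1)) := by
      intro i hi
      have := (th_mem b (Finset.mem_range.1 hi)).2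
      exact mul_le_mul_of_nonneg_right (by linarith) (by positivity)
    refine (Finset.sum_le_sum h2).trans ?_
    rw [Finset.sum_const, Finset.card_range, nsmul_eq_mul]
    have h3 : (nb b : ℝ) * ((K + Real.pi) * (Real.pi / (nb b + 1))) =
        (K + Real.pi) * Real.pi * (nb b / (nb b + 1)) := by ring
    have h4 : (nb b : ℝ) / (nb b + 1) ≤ 1 := by
      rw [div_le_one (by positivity)]
      linarith
    have h5 : (K + Real.pi) * Real.pi * (nb b / (nb b + 1)) ≤ (K + Real.pi) * Real.pi * 1 :=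
      mul_le_mul_of_nonneg_left h4 (by positivity)
    rw [h3, hM]
    linarith
  have e0 : ∀ h, cexW (X n) (w n) (fun a => ∑ i ∈ Finset.range (nb b),
      (K + th b i) * (Real.pi / (nb b + 1)) * φ i n a) h (κ h) =
      ∑ i ∈ Finset.range (nb b), (K + th b i) * (Real.pi / (nb b + 1)) *
        cexW (X n) (w n) (φ i n) h (κ h) := by
    intro h
    unfold cexW
    rw [exW_sum (cyl_fin hwf.fin h (κ h))]
    exact Finset.sum_congr rfl fun i _ => exW_smul (cyl_fin hwf.fin h (κ h)) _ _ _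
  refine (exW_mono hwf.fin (hw n) (g := fun h => ∑ i ∈ Finset.range (nb b),
    (K + th b i) * (Real.pi / (nb b + 1)) * |cexW (X n) (w n) (φ i n) h (κ h) -
        ptL f (th b i) ((X n).W h) b ((X n).c h (κ h))|) fun h hh => ?_).trans ?_
  · rw [e0, obsR, ← Finset.sum_sub_distrib]
    refine (Finset.abs_sum_le_sum_abs _ _).trans (Finset.sum_le_sum fun i hi => ?_)
    rw [← mul_sub, abs_mul, abs_of_nonneg (hc0 i hi)]
  · rw [exW_sum hwf.fin]
    have e2 : ∀ i ∈ Finset.range (nb b), ExW (X n).C (w n) (fun h =>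
        (K + th b i) * (Real.pi / (nb b + 1)) * |cexW (X n) (w n) (φ i n) h (κ h) -
        ptL f (th b i) ((X n).W h) b ((X n).c h (κ h))|) ≤
        (K + th b i) * (Real.pi / (nb b + 1)) * (ε / M) := by
      intro i hi
      rw [exW_smul hwf.fin]
      exact mul_le_mul_of_nonneg_left (hn i hi κ hκ) (hc0 i hi)
    refine (Finset.sum_le_sum e2).trans ?_
    rw [← Finset.sum_mul]
    calc _ ≤ M * (ε / M) := mul_le_mul_of_nonneg_right hsum (by positivity)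
      _ = ε := by field_simp

/-- The complementary events. -/
theorem closePt_compl (hX : AsymB X) (hw : ∀ n, ∀ a ∈ (X n).C, 0 < w n a) {f : ℝ → ℝ}
    (hC : ClosePt X w f) : ClosePt X w fun x => 1 - f x := by
  intro T R hT hR
  obtain ⟨b₁, hb⟩ := hC T R hT hR
  refine ⟨b₁, fun b hb₁ θ hθ ε hε => ?_⟩
  obtain ⟨φ, hφ⟩ := hb b hb₁ θ hθ ε hε
  refine ⟨fun n a => 1 - φ n a, ?_⟩
  filter_upwards [hφ] with n hn
  obtain ⟨a0, a1⟩ := hn
  have hwf := hX.wf n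
  refine ⟨fun h hh => ⟨by linarith [(a0 h hh).2], by linarith [(a0 h hh).1]⟩, fun κ hκ => ?_⟩
  have a2 := a1 κ hκ
  refine (exW_mono hwf.fin (hw n) fun h hh => ?_).trans a2
  have e : cexW (X n) (w n) (fun a => 1 - φ n a) h (κ h) = 1 -
      cexW (X n) (w n) (φ n) h (κ h) := by
    unfold cexW
    rw [exW_sub (cyl_fin hwf.fin h (κ h)) (w n) (fun _ => 1) (φ n),
      exW_const (cyl_fin hwf.fin h (κ h)) ⟨h, mem_cyl hh _⟩
        (fun a ha => hw n a (cyl_sub _ _ _ ha))]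
  have e3 : ∀ x : ℝ, |cexW (X n) (w n) (fun a => 1 - φ n a) h (κ h) - (1 - x)| =
      |cexW (X n) (w n) (φ n) h (κ h) - x| := by
    intro x
    rw [e, ← abs_neg]
    congr 1
    ring
  by_cases h3 : ε < |cexW (X n) (w n) (φ n) h (κ h) -
        f ((flow ((X n).W h) ((X n).c h (κ h)) (pz b θ) -
          ((X n).W h ((X n).c h (κ h)) : ℝ)).arg)|
  · rw [Set.indicator_of_mem (by rw [mem_ofPred_eq, e3]; exact h3),
      Set.indicator_of_mem (by rw [mem_ofPred_eq]; exact h3)]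
  · rw [Set.indicator_of_notMem (by rw [mem_ofPred_eq, e3]; exact h3),
      Set.indicator_of_notMem (by rw [mem_ofPred_eq]; exact h3)]

theorem closePt_shift {f : ℝ → ℝ} (h : ClosePt X w f) (n₀ : ℕ) :
    ClosePt (fun n => X (n + n₀)) (fun n => w (n + n₀)) f := by
  intro T R hT hR
  obtain ⟨b₁, hb⟩ := h T R hT hR
  refine ⟨b₁, fun b hb₁ θ hθ ε hε => ?_⟩
  obtain ⟨φ, hφ⟩ := hb b hb₁ θ hθ ε hε
  exact ⟨fun n => φ (n + n₀), (tendsto_add_atTop_nat n₀).eventually hφ⟩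

end

/-- **The input of Stage II.** -/
def I_ptL (wt : Wt) (f : ℝ → ℝ) : Prop :=
  ∀ (Φ : (ℝ × ℝ) ≃ₜ (ℝ × ℝ)) (ψ : ℂ → ℂ)
  (δ : ℕ → ℝ) (N k : ℕ → ℕ) (p : ∀ n, ZMod (N n) → ℤ × ℤ) (S : ℕ → Finset (ℤ × ℤ))
  (ψn : ℕ → ℂ → ℂ), Set6 Φ ψ δ N k p S ψn →
    ClosePt (exn δ N k p S ψn) (fun n => wt (N n) (p n) (k n) (S n)) f

theorem closeL_unshift {A B : Type*} {X : ℕ → Expl A B} {w : ℕ → A → ℝ}
    {O : (ℝ → ℝ) → ℝ → ℝ → ℝ} (n₀ : ℕ)
    (h : CloseL (fun n => X (n + n₀)) (fun n => w (n + n₀)) O) : CloseL X w O := by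
  intro T R hT hR
  obtain ⟨b₁, hb⟩ := h T R hT hR
  refine ⟨b₁, fun b hb₁ ε hε => ?_⟩
  obtain ⟨φ, hφ⟩ := hb b hb₁ ε hε
  refine ⟨fun n => φ (n - n₀), ?_⟩
  obtain ⟨M, hM⟩ := eventually_atTop.1 hφ
  refine eventually_atTop.2 ⟨M + n₀, fun n hn => ?_⟩
  obtain ⟨m, rfl⟩ : ∃ m, n = m + n₀ := ⟨n - n₀, by omega⟩
  have h1 := hM m (by omega)
  simp only [Nat.add_sub_cancel]
  exact h1

/-- **The observable `obsR` is close in `L¹`.** -/
theorem i_closeL_obsR {wt : Wt} (hwt : WPos wt) {f : ℝ → ℝ} (h0 : ∀ x, 0 ≤ f x)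
    (h1 : ∀ x, f x ≤ 1) (h : I_ptL wt f) {K : ℝ} (hK : 0 ≤ K) : I_closeL wt (obsR f K) := by
  intro Φ ψ δ N k p S ψn H
  obtain ⟨n₀, hn₀⟩ := eventually_atTop.1 (good_ev H.appr)
  have hD := H.dcs Vale.Agent.P153.R2.R1.i_uinj hn₀
  refine closeL_unshift n₀ ?_
  exact closeL_obsR hD.asymB (fun n A _ => hwt _ _ _ _ A) h0 h1
    (closePt_shift (h Φ ψ δ N k p S ψn H) n₀) hK

/-- There is one sequence of lattice domains along which an observable for `SLE_κ` is close. -/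
def I_one (κ : ℝ) (wt : Wt) : Prop :=
  ∃ (Φ : (ℝ × ℝ) ≃ₜ (ℝ × ℝ)) (ψ : ℂ → ℂ)
  (δ : ℕ → ℝ) (N k : ℕ → ℕ) (p : ∀ n, ZMod (N n) → ℤ × ℤ) (S : ℕ → Finset (ℤ × ℤ))
  (ψn : ℕ → ℂ → ℂ) (_ : Set6 Φ ψ δ N k p S ψn) (O : (ℝ → ℝ) → ℝ → ℝ → ℝ) (c₀ c₁ c₂ : ℝ),
    Expn O κ c₀ c₁ c₂ ∧ CloseL (exn δ N k p S ψn) (fun n => wt (N n) (p n) (k n) (S n)) O

/-- **The value of the variance is determined by one sequence.** -/
theorem v_eq_one {κ : ℝ} (hκ : 0 < κ) {wt : Wt} (hwt : WPos wt) (hone : I_one κ wt)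
    {O : (ℝ → ℝ) → ℝ → ℝ → ℝ} {v c₀ c₁ c₂ : ℝ} (hE : Expn O v c₀ c₁ c₂) (hC : I_closeL wt O) :
    v = κ := by
  obtain ⟨Φ, ψ, δ, N, k, p, S, ψn, H, O', c₀', c₁', c₂', hE', hC'⟩ := hone
  obtain ⟨n₀, hn₀⟩ := eventually_atTop.1 (good_ev H.appr)
  have hD := H.dcs Vale.Agent.P153.R2.R1.i_uinj hn₀
  exact v_eq hκ hE hE' hD.asymB (fun n A _ => hwt _ _ _ _ A)
    (closeL_shift (hC Φ ψ δ N k p S ψn H) n₀) (closeL_shift hC' n₀)

/-- **The curve theorem of Stage II** for a monotone function of the angle. -/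
theorem curveLimit_two {κ : ℝ} (hκ : 0 < κ) {wt : Wt} (hwt : WPos wt) {f : ℝ → ℝ}
    (hf : Monotone f) (h0 : ∀ x, 0 ≤ f x) (h1 : ∀ x, f x ≤ 1)
    (hn : ∃ x ∈ Ioo 0 Real.pi, ∃ y ∈ Ioo 0 Real.pi, f x ≠ f y) (hpt : I_ptL wt f)
    (hone : I_one κ wt) (hcross : I_crossW wt) (hfin : I_finW wt) (hnf : I_nfW wt) :
    CurveLimitW κ wt := by
  obtain ⟨K, v, c₀, c₁, c₂, hK, hE⟩ := expn_obsR hf h0 h1 hn
  have hC := i_closeL_obsR hwt h0 h1 hpt hK
  have hv := v_eq_one hκ hwt hone hE hC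
  subst hv
  exact curveLimitL_of hκ hwt hE hC hcross hfin hnf

/-- Restriction to the open interval. -/
theorem closePt_congr {A B : Type*} {X : ℕ → Expl A B} {w : ℕ → A → ℝ} (hX : AsymB X)
    (hw : ∀ n, ∀ a ∈ (X n).C, 0 < w n a) {f g : ℝ → ℝ}
    (hfg : ∀ x ∈ Ioo 0 Real.pi, f x = g x) (hC : ClosePt X w f) : ClosePt X w g := by
  intro T R hT hR
  obtain ⟨C, hC0, hCb⟩ := hX.ok.path_bd T R
  obtain ⟨b₁, hb⟩ := hC T R hT hR
  obtain ⟨C1, b₂, -, -, harg⟩ := arg_flow hC0.le hC0.le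
  refine ⟨max b₁ b₂, fun b hbb θ hθ ε hε => ?_⟩
  obtain ⟨φ, hφ⟩ := hb b ((le_max_left _ _).trans hbb) θ hθ ε hε
  refine ⟨φ, ?_⟩
  filter_upwards [hφ] with n hn
  refine ⟨hn.1, fun κ hκ => ?_⟩
  have hwf := hX.wf n
  refine (exW_mono hwf.fin (hw n) fun h hh => ?_).trans (hn.2 κ hκ)
  obtain ⟨k1, k2⟩ := hκ.2 h hh
  have hbef : (sysX X).Bef T R n ⟨h, hh⟩ (κ h) := by
    intro j hj
    obtain ⟨k3, k4⟩ := k2 j hj
    have hjK : j ≤ (X n).K h := by omega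
    have e4 : (sysX X).τ n j ⟨h, hh⟩ = (X n).c h j := Expl.tt_le hjK
    have e5 : (sysX X).V n j ⟨h, hh⟩ = (X n).V h j := Expl.W_tt_le hjK
    rw [e4, e5]
    exact ⟨k3, k4⟩
  obtain ⟨hp, hτ⟩ := hCb n ⟨h, hh⟩ (κ h) hbef
  have e1 : (sysX X).τ n (κ h) ⟨h, hh⟩ = (X n).c h (κ h) := Expl.tt_le k1.le
  rw [e1] at hτ hp
  have hτ0 : 0 ≤ (X n).c h (κ h) := by
    have := (hX.wf n).tt_nonneg hh (κ h)
    rwa [Expl.tt_le k1.le] at this
  have h3 := harg ((X n).W h) b ((X n).c h (κ h)) hτ0 hτ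
    ((W_cont (X := X) n ⟨h, hh⟩).mono Icc_subset_Ici_self) (fun s hs => hp s hs.1 hs.2)
    ((le_max_right _ _).trans hbb) θ hθ.1 hθ.2
  have h4 : (flow ((X n).W h) ((X n).c h (κ h)) (pz b θ) -
      ((X n).W h ((X n).c h (κ h)) : ℝ)).arg ∈ Ioo 0 Real.pi := by
    have him := h3.2.1
    refine ⟨?_, Complex.arg_lt_pi_iff.2 (Or.inr him.ne')⟩
    refine lt_of_le_of_ne (Complex.arg_nonneg_iff.2 him.le) fun h5 => ?_
    exact him.ne' (Complex.arg_eq_zero_iff.1 h5.symm).2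
  by_cases h5 : ε < |cexW (X n) (w n) (φ n) h (κ h) -
      g ((flow ((X n).W h) ((X n).c h (κ h)) (pz b θ) -
        ((X n).W h ((X n).c h (κ h)) : ℝ)).arg)|
  · rw [Set.indicator_of_mem (by rw [mem_ofPred_eq]; exact h5),
      Set.indicator_of_mem (by rw [mem_ofPred_eq, hfg _ h4]; exact h5)]
  · rw [Set.indicator_of_notMem (by rw [mem_ofPred_eq]; exact h5),
      Set.indicator_of_notMem (by rw [mem_ofPred_eq, hfg _ h4]; exact h5)]

end Vale.Agent.P167.H212
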