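import Vale.Agent.P167.H212.TwoEnd

/-!
# P167, Stage II (S2), file 9: the question from an interior observable `h(g_t(z) - W_t)`
-/

set_option autoImplicit false
set_option linter.unusedVariables false

namespace Vale.Agent.P167.H212

open MeasureTheory ProbabilityTheory Filter Topology Set
open Vale.Agent.P153.M1 (Expl sysX W_cont)
open Vale.Agent.P153.R2
open Vale.Agent.P153.R2.C1
open Vale.Agent.P167.QE
open Vale.Agent.P167.H411 (Expn Set6 exn DC DCs Qc xc_Qc good_ev DCs_bdd fjr_mono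
  I_rado6 AsymB cyl mem_cyl cyl_sub)
open Vale.Agent.P167.E6 Vale.Agent.P167.E2
open Vale.Agent.P167.H947 (surv flow)

/-- A function of the argument of a point of the half-plane: values in `[0, 1]`, homogeneous,
monotone in the argument and not constant. -/
structure HFun (h : ℂ → ℝ) : Prop where
  nonneg : ∀ z : ℂ, 0 < z.im → 0 ≤ h z
  le_one : ∀ z : ℂ, 0 < z.im → h z ≤ 1
  scale : ∀ (r : ℝ) (z : ℂ), 0 < r → 0 < z.im → h (r * z) = h z
  mono : (∀ z z' : ℂ, 0 < z.im → 0 < z'.im → z.arg ≤ z'.arg → h z ≤ h z') ∨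
    (∀ z z' : ℂ, 0 < z.im → 0 < z'.im → z.arg ≤ z'.arg → h z' ≤ h z)
  nconst : ∃ z z' : ℂ, 0 < z.im ∧ 0 < z'.im ∧ h z ≠ h z'

/-- The function of the angle. -/
noncomputable def angF (h : ℂ → ℝ) (x : ℝ) : ℝ :=
  if x ≤ 0 then 0 else if Real.pi ≤ x then 1 else h (pz 1 x)

theorem angF_eq {h : ℂ → ℝ} {x : ℝ} (hx : x ∈ Ioo 0 Real.pi) : angF h x = h (pz 1 x) := by
  rw [angF, if_neg (not_le.2 hx.1), if_neg (not_le.2 hx.2)]

theorem pz_im_pos {x : ℝ} (hx : x ∈ Ioo 0 Real.pi) : 0 < (pz 1 x).im := by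
  rw [im_pz, one_mul]
  exact Real.sin_pos_of_pos_of_lt_pi hx.1 hx.2

theorem arg_mem {z : ℂ} (hz : 0 < z.im) : z.arg ∈ Ioo 0 Real.pi := by
  refine ⟨?_, Complex.arg_lt_pi_iff.2 (Or.inr hz.ne')⟩
  refine lt_of_le_of_ne (Complex.arg_nonneg_iff.2 hz.le) fun h5 => ?_
  exact hz.ne' (Complex.arg_eq_zero_iff.1 h5.symm).2

theorem HFun.eq_ang {h : ℂ → ℝ} (H : HFun h) {z : ℂ} (hz : 0 < z.im) : h z = angF h z.arg := by
  have hz0 : z ≠ 0 := by
    rintro rfl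
    simp at hz
  rw [angF_eq (arg_mem hz)]
  have e : z = ((‖z‖ : ℝ) : ℂ) * pz 1 z.arg := by
    rw [pz, Complex.ofReal_one, one_mul, Complex.norm_mul_exp_arg_mul_I]
  conv_lhs => rw [e]
  exact H.scale _ _ (norm_pos_iff.2 hz0) (pz_im_pos (arg_mem hz))

theorem HFun.mono_ang {h : ℂ → ℝ} (H : HFun h)
    (hm : ∀ z z' : ℂ, 0 < z.im → 0 < z'.im → z.arg ≤ z'.arg → h z ≤ h z') :
    Monotone (angF h) := by
  intro x y hxy
  have hn : ∀ x, 0 ≤ angF h x := fun x => by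
    unfold angF
    split_ifs with h1 h2
    · exact le_rfl
    · exact zero_le_one
    · exact H.nonneg _ (pz_im_pos ⟨not_le.1 h1, not_le.1 h2⟩)
  have hl : ∀ x, angF h x ≤ 1 := fun x => by
    unfold angF
    split_ifs with h1 h2
    · exact zero_le_one
    · exact le_rfl
    · exact H.le_one _ (pz_im_pos ⟨not_le.1 h1, not_le.1 h2⟩)
  by_cases hx0 : x ≤ 0
  · have : angF h x = 0 := by rw [angF, if_pos hx0]
    rw [this]
    exact hn y
  by_cases hy1 : Real.pi ≤ y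
  · have hy0 : ¬ y ≤ 0 := not_le.2 (Real.pi_pos.trans_le hy1)
    have : angF h y = 1 := by rw [angF, if_neg hy0, if_pos hy1]
    rw [this]
    exact hl x
  push Not at hx0 hy1
  have hx : x ∈ Ioo 0 Real.pi := ⟨hx0, hxy.trans_lt hy1⟩
  have hy : y ∈ Ioo 0 Real.pi := ⟨hx0.trans_le hxy, hy1⟩
  rw [angF_eq hx, angF_eq hy]
  refine hm _ _ (pz_im_pos hx) (pz_im_pos hy) ?_
  rw [arg_pz one_pos hx.1 hx.2, arg_pz one_pos hy.1 hy.2]
  exact hxy

theorem HFun.ang_nonneg {h : ℂ → ℝ} (H : HFun h) (x : ℝ) : 0 ≤ angF h x := by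
  unfold angF
  split_ifs with h1 h2
  · exact le_rfl
  · exact zero_le_one
  · exact H.nonneg _ (pz_im_pos ⟨not_le.1 h1, not_le.1 h2⟩)

theorem HFun.ang_le {h : ℂ → ℝ} (H : HFun h) (x : ℝ) : angF h x ≤ 1 := by
  unfold angF
  split_ifs with h1 h2
  · exact zero_le_one
  · exact le_rfl
  · exact H.le_one _ (pz_im_pos ⟨not_le.1 h1, not_le.1 h2⟩)

theorem HFun.ang_nconst {h : ℂ → ℝ} (H : HFun h) :
    ∃ x ∈ Ioo 0 Real.pi, ∃ y ∈ Ioo 0 Real.pi, angF h x ≠ angF h y := by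
  obtain ⟨z, z', hz, hz', hne⟩ := H.nconst
  refine ⟨z.arg, arg_mem hz, z'.arg, arg_mem hz', ?_⟩
  rwa [← H.eq_ang hz, ← H.eq_ang hz']

theorem HFun.compl {h : ℂ → ℝ} (H : HFun h) : HFun fun z => 1 - h z where
  nonneg := fun z hz => by linarith [H.le_one z hz]
  le_one := fun z hz => by linarith [H.nonneg z hz]
  scale := fun r z hr hz => by rw [H.scale r z hr hz]
  mono := by
    rcases H.mono with hm | hm
    · exact Or.inr fun z z' hz hz' ha => by linarith [hm z z' hz hz' ha]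
    · exact Or.inl fun z z' hz hz' ha => by linarith [hm z z' hz hz' ha]
  nconst := by
    obtain ⟨z, z', hz, hz', hne⟩ := H.nconst
    exact ⟨z, z', hz, hz', fun he => hne (by linarith)⟩

section

variable {A B : Type*}

/-- **Pointwise closeness in probability**: for every angle `θ`, all large `b` and all `ε > 0` there
are functions `φ n` of the outcome with values in `[0, 1]` (indicators of events) whose conditional
expectations at stopping indices before the exit from `[0, T] × [-R, R]` are within `ε` of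
`h (g_t(b e^{i θ}) - W_t)` with probability at least `1 - ε`. -/
def ClosePz (X : ℕ → Expl A B) (w : ℕ → A → ℝ) (h : ℂ → ℝ) : Prop :=
  ∀ T R : ℝ, 0 ≤ T → 0 < R → ∃ b₁ : ℝ, ∀ b : ℝ, b₁ ≤ b → ∀ θ ∈ Ioo 0 Real.pi, ∀ ε : ℝ, 0 < ε →
    ∃ φ : ℕ → A → ℝ, ∀ᶠ n in atTop, (∀ a ∈ (X n).C, 0 ≤ φ n a ∧ φ n a ≤ 1) ∧
      ∀ κ : A → ℕ, BefIx (X n) T R κ →
      ExW (X n).C (w n) ({a | ε < |cexW (X n) (w n) (φ n) a (κ a) -
        h (flow ((X n).W a) ((X n).c a (κ a)) (pz b θ) -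
          ((X n).W a ((X n).c a (κ a)) : ℝ))|}.indicator 1) ≤ ε

variable {X : ℕ → Expl A B} {w : ℕ → A → ℝ}

theorem closePt_of_pz (hX : AsymB X) (hw : ∀ n, ∀ a ∈ (X n).C, 0 < w n a) {h : ℂ → ℝ}
    (H : HFun h) (hC : ClosePz X w h) : ClosePt X w (angF h) := by
  intro T R hT hR
  obtain ⟨C, hC0, hCb⟩ := hX.ok.path_bd T R
  obtain ⟨b₁, hb⟩ := hC T R hT hR
  obtain ⟨C1, b₂, -, -, harg⟩ := arg_flow hC0.le hC0.le
  refine ⟨max b₁ b₂, fun b hbb θ hθ ε hε => ?_⟩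
  obtain ⟨φ, hφ⟩ := hb b ((le_max_left _ _).trans hbb) θ hθ ε hε
  refine ⟨φ, ?_⟩
  filter_upwards [hφ] with n hn
  refine ⟨hn.1, fun κ hκ => ?_⟩
  have hwf := hX.wf n
  refine (exW_mono hwf.fin (hw n) fun a ha => ?_).trans (hn.2 κ hκ)
  obtain ⟨k1, k2⟩ := hκ.2 a ha
  have hbef : (sysX X).Bef T R n ⟨a, ha⟩ (κ a) := by
    intro j hj
    obtain ⟨k3, k4⟩ := k2 j hj
    have hjK : j ≤ (X n).K a := by omega
    have e4 : (sysX X).τ n j ⟨a, ha⟩ = (X n).c a j := Expl.tt_le hjK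
    have e5 : (sysX X).V n j ⟨a, ha⟩ = (X n).V a j := Expl.W_tt_le hjK
    rw [e4, e5]
    exact ⟨k3, k4⟩
  obtain ⟨hp, hτ⟩ := hCb n ⟨a, ha⟩ (κ a) hbef
  have e1 : (sysX X).τ n (κ a) ⟨a, ha⟩ = (X n).c a (κ a) := Expl.tt_le k1.le
  rw [e1] at hτ hp
  have hτ0 : 0 ≤ (X n).c a (κ a) := by
    have := (hX.wf n).tt_nonneg ha (κ a)
    rwa [Expl.tt_le k1.le] at this
  have h3 := harg ((X n).W a) b ((X n).c a (κ a)) hτ0 hτ
    ((W_cont (X := X) n ⟨a, ha⟩).mono Icc_subset_Ici_self) (fun s hs => hp s hs.1 hs.2)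
    ((le_max_right _ _).trans hbb) θ hθ.1 hθ.2
  have h4 := H.eq_ang h3.2.1
  by_cases h5 : ε < |cexW (X n) (w n) (φ n) a (κ a) -
      angF h ((flow ((X n).W a) ((X n).c a (κ a)) (pz b θ) -
        ((X n).W a ((X n).c a (κ a)) : ℝ)).arg)|
  · rw [Set.indicator_of_mem (by rw [mem_ofPred_eq]; exact h5),
      Set.indicator_of_mem (by rw [mem_ofPred_eq, h4]; exact h5)]
  · rw [Set.indicator_of_notMem (by rw [mem_ofPred_eq]; exact h5),
      Set.indicator_of_notMem (by rw [mem_ofPred_eq, h4]; exact h5)]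

theorem closePz_shift {h : ℂ → ℝ} (hC : ClosePz X w h) (n₀ : ℕ) :
    ClosePz (fun n => X (n + n₀)) (fun n => w (n + n₀)) h := by
  intro T R hT hR
  obtain ⟨b₁, hb⟩ := hC T R hT hR
  refine ⟨b₁, fun b hb₁ θ hθ ε hε => ?_⟩
  obtain ⟨φ, hφ⟩ := hb b hb₁ θ hθ ε hε
  exact ⟨fun n => φ (n + n₀), (tendsto_add_atTop_nat n₀).eventually hφ⟩

theorem closePt_unshift {f : ℝ → ℝ} (n₀ : ℕ)
    (h : ClosePt (fun n => X (n + n₀)) (fun n => w (n + n₀)) f) : ClosePt X w f := by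
  intro T R hT hR
  obtain ⟨b₁, hb⟩ := h T R hT hR
  refine ⟨b₁, fun b hb₁ θ hθ ε hε => ?_⟩
  obtain ⟨φ, hφ⟩ := hb b hb₁ θ hθ ε hε
  refine ⟨fun n => φ (n - n₀), ?_⟩
  obtain ⟨M, hM⟩ := eventually_atTop.1 hφ
  refine eventually_atTop.2 ⟨M + n₀, fun n hn => ?_⟩
  obtain ⟨m, rfl⟩ : ∃ m, n = m + n₀ := ⟨n - n₀, by omega⟩
  have h1 := hM m (by omega)
  simp only [Nat.add_sub_cancel]
  exact h1

end

/-- **The input of Stage II** for a function of the half-plane. -/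
def I_pzL (wt : Wt) (h : ℂ → ℝ) : Prop :=
  ∀ (Φ : (ℝ × ℝ) ≃ₜ (ℝ × ℝ)) (ψ : ℂ → ℂ)
  (δ : ℕ → ℝ) (N k : ℕ → ℕ) (p : ∀ n, ZMod (N n) → ℤ × ℤ) (S : ℕ → Finset (ℤ × ℤ))
  (ψn : ℕ → ℂ → ℂ), Set6 Φ ψ δ N k p S ψn →
    ClosePz (exn δ N k p S ψn) (fun n => wt (N n) (p n) (k n) (S n)) h

theorem ptL_of_pzL {wt : Wt} (hwt : WPos wt) {h : ℂ → ℝ} (H : HFun h) (hC : I_pzL wt h) :
    I_ptL wt (angF h) := by
  intro Φ ψ δ N k p S ψn H6
  obtain ⟨n₀, hn₀⟩ := eventually_atTop.1 (good_ev H6.appr)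
  have hD := H6.dcs Vale.Agent.P153.R2.R1.i_uinj hn₀
  exact closePt_unshift n₀ (closePt_of_pz hD.asymB (fun n A _ => hwt _ _ _ _ A) H
    (closePz_shift (hC Φ ψ δ N k p S ψn H6) n₀))

theorem ptL_compl {wt : Wt} (hwt : WPos wt) {h : ℝ → ℝ} (hC : I_ptL wt h) :
    I_ptL wt fun z => 1 - h z := by
  intro Φ ψ δ N k p S ψn H6
  obtain ⟨n₀, hn₀⟩ := eventually_atTop.1 (good_ev H6.appr)
  have hD := H6.dcs Vale.Agent.P153.R2.R1.i_uinj hn₀
  exact closePt_unshift n₀ (closePt_compl hD.asymB (fun n A _ => hwt _ _ _ _ A)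
    (closePt_shift (hC Φ ψ δ N k p S ψn H6) n₀))

/-- **The curve theorem of Stage II.** -/
theorem curveLimit_h {κ : ℝ} (hκ : 0 < κ) {wt : Wt} (hwt : WPos wt) {h : ℂ → ℝ}
    (H : HFun h) (hpt : I_pzL wt h) (hone : I_one κ wt) (hcross : I_crossW wt)
    (hfin : I_finW wt) (hnf : I_nfW wt) : CurveLimitW κ wt := by
  have h1 := ptL_of_pzL hwt H hpt
  rcases H.mono with hm | hm
  · exact curveLimit_two hκ hwt (H.mono_ang hm) H.ang_nonneg H.ang_le H.ang_nconst h1 hone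
      hcross hfin hnf
  · have h2 := ptL_compl hwt h1
    have H' := H.compl
    have hm' : ∀ z z' : ℂ, 0 < z.im → 0 < z'.im → z.arg ≤ z'.arg → 1 - h z ≤ 1 - h z' :=
      fun z z' hz hz' ha => by linarith [hm z z' hz hz' ha]
    -- the two extensions agree on `(0, π)`
    have h3 : I_ptL wt (angF fun z => 1 - h z) := by
      intro Φ ψ δ N k p S ψn H6
      obtain ⟨n₀, hn₀⟩ := eventually_atTop.1 (good_ev H6.appr)
      have hD := H6.dcs Vale.Agent.P153.R2.R1.i_uinj hn₀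
      refine closePt_unshift n₀ (closePt_congr hD.asymB (fun n A _ => hwt _ _ _ _ A)
        (fun x hx => ?_) (closePt_shift (h2 Φ ψ δ N k p S ψn H6) n₀))
      rw [angF_eq hx, angF_eq hx]
    exact curveLimit_two hκ hwt (H'.mono_ang hm') H'.ang_nonneg H'.ang_le H'.ang_nconst h3 hone
      hcross hfin hnf

/-- The one sequence from closeness in probability of the boundary observable. -/
theorem i_one_of_closeP {q : ℝ} (h0 : 0 < q) (h4 : q < 4)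
    {Φ : (ℝ × ℝ) ≃ₜ (ℝ × ℝ)} {ψ : ℂ → ℂ} {δ : ℕ → ℝ} {N k : ℕ → ℕ}
    {p : ∀ n, ZMod (N n) → ℤ × ℤ} {S : ℕ → Finset (ℤ × ℤ)} {ψn : ℕ → ℂ → ℂ}
    (H : Set6 Φ ψ δ N k p S ψn)
    (hC : CloseP (exn δ N k p S ψn) (fun n => wq q (N n) (p n) (k n) (S n))
      (obsQ (muq q / Real.pi))) : I_one (Final.kappa q) (wq q) := by
  obtain ⟨c₀, c₁, c₂, hE⟩ := expn_q h0 h4
  obtain ⟨n₀, hn₀⟩ := eventually_atTop.1 (good_ev H.appr)
  have hD := H.dcs Vale.Agent.P153.R2.R1.i_uinj hn₀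
  refine ⟨Φ, ψ, δ, N, k, p, S, ψn, H, _, c₀, c₁, c₂, hE, closeL_unshift n₀ ?_⟩
  exact closeL_of_closeP (kappa_pos' h0.le).le hE hD.asymB
    (fun n A _ => wq_pos h0 _ _ _ _ A) (closeP_shift hC n₀)

/-- **The question for `0 < q < 4` from Stage I (one sequence) and the interior observable.** -/
theorem question_two {q : ℝ} (h0 : 0 < q) (h4 : q < 4) {h : ℂ → ℝ} (H : HFun h)
    (hpt : I_pzL (wq q) h) (hone : I_one (Final.kappa q) (wq q)) (hcross : I_crossW (wq q))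
    (hfin : I_finW (wq q)) (hnf : I_nfW (wq q)) : Final.Question q :=
  question_of_curve h0 (curveLimit_h (kappa_pos' h0.le) (wq_pos h0) H hpt hone hcross hfin hnf)

end Vale.Agent.P167.H212
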